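import Vale.Agent.P281.H389.TL.Fam6

/-!
# P281, project T-L, block B6 (helper389): `FamUStmt` from `HarStmt`
-/

open Set Filter Metric
open scoped Topology ContDiff Manifold

noncomputable section

namespace Vale.Agent.P281.H389.TL
open H64 H64.TK H152.K H969.TL


section
variable {p d : ℕ} {X Y : Type} [TopologicalSpace X] [T2Space X] [CompactSpace X]
    [ChartedSpace (Cm (p + d)) X] [IsManifold 𝓘(ℂ, Cm (p + d)) ω X] [TopologicalSpace Y]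
    [T2Space Y] [ChartedSpace (Cm p) Y] [IsManifold 𝓘(ℂ, Cm p) ω Y] {f : X → Y} {S : Set Y}

/-- a system of charts near the fibre over `y₀`, with Harnack's inequality -/
theorem exists_sys (hf : ContMDiff 𝓘(ℂ, Cm (p + d)) 𝓘(ℂ, Cm p) ω f)
    (hS : IsClosed S) (hP : H64.IsProperFibration (n := p + d) (p := p) f S)
    {𝒟 : Finset (Set X)} {a : Set X → ℤ}
    (h𝒟 : ∀ D ∈ 𝒟, J.IsPrime (Cm (p + d)) D) (hnot : ∀ D ∈ 𝒟, ∀ y ∉ S, ¬ f ⁻¹' {y} ⊆ D)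
    {y₀ : Y} (hy₀ : y₀ ∉ S)
    (hHar : ∀ x x' : X, f x = y₀ → f x' = y₀ → ∀ e e' : Set X → X → ℂ,
      (∀ D ∈ 𝒟, J.IsLocalEq (Cm (p + d)) D (e D) x) →
      (∀ D ∈ 𝒟, J.IsLocalEq (Cm (p + d)) D (e' D) x') → ∃ C : ℝ, ∃ V ∈ 𝓝 x, ∃ V' ∈ 𝓝 x',
      ∀ (y : Y) (U : X → ℂ), IsUnitAt (Cm (p + d)) f 𝒟 a y U → ∀ z ∈ V, ∀ z' ∈ V', f z = y →
        f z' = y → (∀ D ∈ 𝒟, z ∉ D) → (∀ D ∈ 𝒟, z' ∉ D) →
        ‖U z * ∏ D ∈ 𝒟, e D z ^ (-a D)‖ ≤ C * ‖U z' * ∏ D ∈ 𝒟, e' D z' ^ (-a D)‖) :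
    ∃ (T : Sys f (chartAt (Cm p) y₀) d 𝒟) (C : ℝ), chartAt (Cm p) y₀ y₀ ∈ T.T ∧
      (∀ t ∈ T.T, (chartAt (Cm p) y₀).symm t ∉ S) ∧ T.Har a C := by
  classical
  set χ := chartAt (Cm p) y₀ with hχ
  have hχa : χ ∈ atlas (Cm p) Y := chart_mem_atlas _ y₀
  have hys : y₀ ∈ χ.source := mem_chart_source _ y₀
  set t₀ := χ y₀ with ht₀
  have ht₀t : t₀ ∈ χ.target := χ.map_source hys
  have hsy : χ.symm t₀ = y₀ := χ.left_inv hys
  have hfc : Continuous f := hf.continuous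
  set K : Set X := f ⁻¹' {y₀} with hK
  -- a point off the divisors
  obtain ⟨x₀, hx₀, hx₀D⟩ : ∃ x₀, f x₀ = y₀ ∧ ∀ D ∈ 𝒟, x₀ ∉ D := by
    obtain ⟨x, hx⟩ := (hP.connected y₀ hy₀).nonempty
    have hx' : f x = y₀ := hx
    obtain ⟨c, δ, hδ, k1, k2, -, k4, k5⟩ := exists_chart hf hP hχa (x := x)
      (by rw [hx']; exact hys) (by rw [hx']; exact hy₀) univ_mem
    rw [hx'] at k4 k5
    have h1 := dense_chart hf hP h𝒟 hnot k1 (t := t₀) (by rw [hsy]; exact hy₀) 0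
      (k5 ⟨mem_ball_self hδ, mem_ball_self (by norm_num)⟩)
    have h2 : ∀ᶠ z' : Cm d in 𝓝 0, z' ∈ ball (0 : Cm d) 3 :=
      isOpen_ball.mem_nhds (mem_ball_self (by norm_num))
    obtain ⟨z, hz, hz'⟩ := (h1.and_eventually h2).exists
    exact ⟨c.symm (t₀, z), (f_symm k1 (k5 ⟨mem_ball_self hδ, hz'⟩)).trans hsy, hz⟩
  -- local equations
  have he : ∀ x : X, ∃ e : Set X → X → ℂ, ∀ D ∈ 𝒟, J.IsLocalEq (Cm (p + d)) D (e D) x := by
    intro x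
    have h1 : ∀ D : Set X, ∃ g : X → ℂ, D ∈ 𝒟 → J.IsLocalEq (Cm (p + d)) D g x := by
      intro D
      by_cases hD : D ∈ 𝒟
      · obtain ⟨g, hg⟩ := (h𝒟 D hD).2.1 x
        exact ⟨g, fun _ => hg⟩
      · exact ⟨0, fun h => absurd h hD⟩
    choose g hg using h1
    exact ⟨g, hg⟩
  choose e he using he
  choose C1 V1 hV1 V1' hV1' har1 using fun x : K => hHar x.1 x₀ x.2 hx₀ (e x.1) (e x₀)
    (he x.1) (he x₀)
  choose C2 V2 hV2 V2' hV2' har2 using fun x : K => hHar x₀ x.1 hx₀ x.2 (e x₀) (e x.1)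
    (he x₀) (he x.1)
  -- the neighbourhoods
  have hO : ∀ x : K, ∀ᶠ x' in 𝓝 x.1, x' ∈ V1 x ∧ x' ∈ V2' x ∧
      (∀ D ∈ 𝒟, J.IsLocalEq (Cm (p + d)) D (e x.1 D) x') ∧
      (x.1 = x₀ → ∀ D ∈ 𝒟, x' ∉ D) := by
    intro x
    refine (Filter.eventually_mem_set.2 (hV1 x)).and
      ((Filter.eventually_mem_set.2 (hV2' x)).and (Filter.Eventually.and ?_ ?_))
    · rw [Filter.eventually_all_finset]
      exact fun D hD => IsLocalEq.eventually (E := Cm (p + d)) (he x.1 D hD)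
    · by_cases hxx : x.1 = x₀
      · have h1 : ∀ᶠ x' in 𝓝 x.1, ∀ D ∈ 𝒟, x' ∉ D := by
          rw [Filter.eventually_all_finset]
          intro D hD
          exact (h𝒟 D hD).1.isOpen_compl.mem_nhds (by rw [hxx]; exact hx₀D D hD)
        exact h1.mono fun x' h _ => h
      · exact Eventually.of_forall fun x' h => absurd h hxx
  have hch : ∀ x : K, ∃ (c : OpenPartialHomeomorph X (Cm p × Cm d)) (δ : ℝ), 0 < δ ∧
      IsProd f χ c ∧ x.1 ∈ c.source ∧ c.source ⊆ {x' | x' ∈ V1 x ∧ x' ∈ V2' x ∧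
        (∀ D ∈ 𝒟, J.IsLocalEq (Cm (p + d)) D (e x.1 D) x') ∧ (x.1 = x₀ → ∀ D ∈ 𝒟, x' ∉ D)} ∧
      c x.1 = (t₀, 0) ∧ ball t₀ δ ×ˢ ball (0 : Cm d) 3 ⊆ c.target := by
    intro x
    have hx' : f x.1 = y₀ := x.2
    have h1 := exists_chart hf hP hχa (x := x.1)
      (by rw [hx']; exact hys) (by rw [hx']; exact hy₀) (hO x)
    rw [hx'] at h1
    exact h1
  choose c δ hδ hc1 hc2 hc3 hc4 hc5 using hch
  -- the cover of the fibre
  let V : K → Set X := fun m => (c m).source ∩ (c m) ⁻¹' {q | ‖q.2‖ < 1}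
  have hVo : ∀ m, IsOpen (V m) := fun m =>
    (c m).isOpen_inter_preimage (isOpen_lt (by fun_prop) continuous_const)
  have hVm : ∀ m, m.1 ∈ V m := fun m => ⟨hc2 m, by
    show ‖(c m m.1).2‖ < 1
    rw [hc4]; simp⟩
  have hKc : IsCompact K := (isClosed_singleton.preimage hfc).isCompact
  obtain ⟨s, hs⟩ := hKc.elim_nhds_subcover' (fun x hx => V ⟨x, hx⟩)
    fun x hx => (hVo ⟨x, hx⟩).mem_nhds (hVm ⟨x, hx⟩)
  set m₀ : K := ⟨x₀, hx₀⟩ with hm₀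
  set s' : Finset K := insert m₀ s with hs'
  have hs2 : K ⊆ ⋃ m ∈ s', V m := by
    intro x hx
    obtain ⟨m, hm⟩ := mem_iUnion.1 (hs hx)
    obtain ⟨hm1, hm2⟩ := mem_iUnion.1 hm
    exact mem_iUnion₂.2 ⟨m, Finset.mem_insert_of_mem hm1, hm2⟩
  have hnear := fibre_near' hfc (isOpen_biUnion fun m (_ : m ∈ s') => hVo m) hs2
  have hσ : Tendsto χ.symm (𝓝 t₀) (𝓝 y₀) := by
    have := (χ.continuousAt_symm ht₀t).tendsto
    rwa [hsy] at this
  -- the section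
  have hm0t : (t₀, (0 : Cm d)) ∈ (c m₀).target :=
    hc5 m₀ ⟨mem_ball_self (hδ m₀), mem_ball_self (by norm_num)⟩
  have hsec : Tendsto (fun t : Cm p => (c m₀).symm (t, 0)) (𝓝 t₀) (𝓝 x₀) := by
    have h1 : (c m₀).symm (t₀, 0) = x₀ := by
      rw [← hc4 m₀, (c m₀).left_inv (hc2 m₀)]
    have h2 := ((c m₀).continuousAt_symm hm0t).tendsto
    rw [h1] at h2
    exact h2.comp ((Continuous.prodMk_left (0 : Cm d)).tendsto t₀)
  set ε₀ : X → ℂ := fun x => ∏ D ∈ 𝒟, e x₀ D x ^ (-a D) with hε₀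
  have hne0 : ∀ D ∈ 𝒟, e x₀ D x₀ ≠ 0 := fun D hD h0 =>
    hx₀D D hD ((IsLocalEq.mem_iff (E := Cm (p + d)) (he x₀ D hD)).2 h0)
  have hε : ContinuousAt ε₀ x₀ := by
    have h1 : HolV (Cm (p + d)) ε₀ x₀ :=
      HolV.prod fun D hD => holV_zpow (IsLocalEq.holAt (E := Cm (p + d)) (he x₀ D hD))
        (hne0 D hD) _
    exact h1.continuousAt
  have hε0 : 0 < ‖ε₀ x₀‖ := by
    rw [norm_pos_iff, hε₀, Finset.prod_ne_zero_iff]
    exact fun D hD => zpow_ne_zero _ (hne0 D hD)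
  set m1 : ℝ := ‖ε₀ x₀‖ / 2 with hm1
  set m2 : ℝ := ‖ε₀ x₀‖ + 1 with hm2
  have hm1p : 0 < m1 := by positivity
  have hεn : ∀ᶠ x in 𝓝 x₀, m1 < ‖ε₀ x‖ ∧ ‖ε₀ x‖ < m2 :=
    (hε.norm.eventually_const_lt (by linarith)).and
      (hε.norm.eventually_lt_const (by linarith))
  have hev : ∀ᶠ t in 𝓝 t₀, t ∈ χ.target ∧ χ.symm t ∉ S ∧
      f ⁻¹' {χ.symm t} ⊆ ⋃ m ∈ s', V m ∧
      (∀ m ∈ s', t ∈ ball t₀ (δ m) ∧ (c m₀).symm (t, 0) ∈ V1' m ∧ (c m₀).symm (t, 0) ∈ V2 m) ∧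
      m1 < ‖ε₀ ((c m₀).symm (t, 0))‖ ∧ ‖ε₀ ((c m₀).symm (t, 0))‖ < m2 := by
    have h0 : ∀ᶠ t in 𝓝 t₀, t ∈ χ.target := χ.open_target.mem_nhds ht₀t
    refine h0.and
      (Filter.Eventually.and ?_ (Filter.Eventually.and ?_ (Filter.Eventually.and ?_ ?_)))
    · exact hσ.eventually (hS.isOpen_compl.mem_nhds hy₀)
    · exact hσ.eventually hnear
    · rw [Filter.eventually_all_finset]
      intro m _
      exact (Filter.eventually_mem_set.2 (ball_mem_nhds t₀ (hδ m))).and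
        ((hsec.eventually (hV1' m)).and (hsec.eventually (hV2 m)))
    · exact hsec.eventually hεn
  obtain ⟨r, hr, hball⟩ := Metric.mem_nhds_iff.1 hev
  let eq : s' ≃ Fin s'.card := s'.equivFin
  have hm₀s : m₀ ∈ s' := Finset.mem_insert_self m₀ s
  let T : Sys f χ d 𝒟 :=
    { T := ball t₀ r
      isOpen := isOpen_ball
      sub := fun t ht => (hball ht).1
      N := s'.card
      c := fun i => c (eq.symm i).1
      prod := fun i => hc1 _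
      tgt := fun i => by
        refine Subset.trans ?_ (hc5 (eq.symm i).1)
        refine prod_mono ?_ subset_rfl
        intro t ht
        exact ((hball ht).2.2.2.1 _ (eq.symm i).2).1
      cover := by
        intro x hx hx'
        have h1 : x ∈ ⋃ m ∈ s', V m := (hball hx').2.2.1 (by
          show f x = χ.symm (χ (f x))
          exact (χ.left_inv hx).symm)
        simp only [mem_iUnion] at h1
        obtain ⟨m, hm, h2, h3⟩ := h1
        refine ⟨eq ⟨m, hm⟩, (c m x).2, h3, ?_⟩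
        rw [eq.symm_apply_apply]
        exact symm_fibre (hc1 m) h2
      e := fun i => e (eq.symm i).1.1
      leq := fun i x hx => (hc3 _ hx).2.2.1
      i₀ := eq ⟨m₀, hm₀s⟩
      sec := by
        intro t ht D hD
        rw [eq.symm_apply_apply]
        have h1 : (t, (0 : Cm d)) ∈ (c m₀).target :=
          hc5 m₀ ⟨((hball ht).2.2.2.1 _ hm₀s).1, mem_ball_self (by norm_num)⟩
        exact (hc3 m₀ ((c m₀).map_target h1)).2.2.2 rfl D hD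
      dense := by
        intro i t ht z hz
        refine dense_chart hf hP h𝒟 hnot (hc1 _) (hball ht).2.1 z ?_
        exact hc5 _ ⟨((hball ht).2.2.2.1 _ (eq.symm i).2).1, hz⟩
      closed := fun D hD => (h𝒟 D hD).1
      conn := fun t ht => (hP.connected _ (hball ht).2.1).isPreconnected
      cpt := fun t _ => (isClosed_singleton.preimage hfc).isCompact }
  set C : ℝ := ∑ m ∈ s', (|C1 m| * m2 + |C2 m| / m1) with hC
  have hCm : ∀ m ∈ s', |C1 m| * m2 + |C2 m| / m1 ≤ C := fun m hm =>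
    Finset.single_le_sum (f := fun m => |C1 m| * m2 + |C2 m| / m1)
      (fun m _ => by positivity) hm
  refine ⟨T, C, mem_ball_self hr, fun t ht => (hball ht).2.1, ?_⟩
  intro t ht U hU hU1 i z hz hD
  set m : K := (eq.symm i).1 with hmdef
  have hms : m ∈ s' := (eq.symm i).2
  obtain ⟨b1, b2, b3, b4, b5, b6⟩ := hball ht
  obtain ⟨c1, c2, c3⟩ := b4 m hms
  have hU1' : U ((c m₀).symm (t, 0)) = 1 := by
    have h1 : T.s T.i₀ t 0 = (c m₀).symm (t, 0) := by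
      show (c (eq.symm (eq ⟨m₀, hm₀s⟩)).1).symm (t, 0) = _
      rw [eq.symm_apply_apply]
    rw [← h1]
    exact hU1
  have hσt : (t, (0 : Cm d)) ∈ (c m₀).target :=
    hc5 m₀ ⟨(b4 m₀ hm₀s).1, mem_ball_self (by norm_num)⟩
  have hσD : ∀ D ∈ 𝒟, (c m₀).symm (t, 0) ∉ D := fun D hD =>
    (hc3 m₀ ((c m₀).map_target hσt)).2.2.2 rfl D hD
  have hxt : (t, z) ∈ (c m).target := hc5 m ⟨c1, hz⟩
  have hxO := hc3 m ((c m).map_target hxt)
  have hEi : (T.E a i (T.s i t z))⁻¹ = ∏ D ∈ 𝒟, e m.1 D ((c m).symm (t, z)) ^ (-a D) := by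
    show (∏ D ∈ 𝒟, e m.1 D ((c m).symm (t, z)) ^ a D)⁻¹ = _
    rw [← Finset.prod_inv_distrib]
    exact Finset.prod_congr rfl fun D _ => (zpow_neg _ _).symm
  have hD' : ∀ D ∈ 𝒟, (c m).symm (t, z) ∉ D := hD
  rw [hEi]
  show ‖U ((c m).symm (t, z)) * _‖ ≤ C ∧ 1 ≤ C * ‖U ((c m).symm (t, z)) * _‖
  set v : ℝ := ‖U ((c m).symm (t, z)) * ∏ D ∈ 𝒟, e m.1 D ((c m).symm (t, z)) ^ (-a D)‖ with hv
  have hv0 : 0 ≤ v := norm_nonneg _
  have A1 : v ≤ C1 m * ‖ε₀ ((c m₀).symm (t, 0))‖ := by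
    have := har1 m (χ.symm t) U hU _ hxO.1 _ c2 (f_symm (hc1 m) hxt) (f_symm (hc1 m₀) hσt)
      hD' hσD
    rw [hU1', one_mul] at this
    exact this
  have A2 : ‖ε₀ ((c m₀).symm (t, 0))‖ ≤ C2 m * v := by
    have := har2 m (χ.symm t) U hU _ c3 _ hxO.2.1 (f_symm (hc1 m₀) hσt) (f_symm (hc1 m) hxt)
      hσD hD'
    rw [hU1', one_mul] at this
    exact this
  have h1 := hCm m hms
  have h2 : 0 ≤ |C2 m| / m1 := by positivity
  have h3 : 0 ≤ |C1 m| * m2 := by positivity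
  constructor
  · calc v ≤ C1 m * ‖ε₀ ((c m₀).symm (t, 0))‖ := A1
      _ ≤ |C1 m| * m2 := by
        have := le_abs_self (C1 m)
        have h4 : 0 ≤ ‖ε₀ ((c m₀).symm (t, 0))‖ := norm_nonneg _
        have h5 := abs_nonneg (C1 m)
        nlinarith [b6.le]
      _ ≤ C := by linarith
  · have h4 : m1 ≤ |C2 m| * v :=
      (b5.le.trans A2).trans (mul_le_mul_of_nonneg_right (le_abs_self _) hv0)
    have h5 : 1 ≤ |C2 m| / m1 * v := by
      rw [div_mul_eq_mul_div, le_div_iff₀ hm1p, one_mul]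
      exact h4
    calc (1 : ℝ) ≤ |C2 m| / m1 * v := h5
      _ ≤ C * v := mul_le_mul_of_nonneg_right (by linarith) hv0

end

/-- **B6** -/
theorem famU (hH : HarStmt) : FamUStmt := by
  intro p d X Y _ _ _ _ _ _ _ _ _ f S w 𝒟 a hd hw hf hS hP h𝒟 hnot hfr y₀ hy₀
  obtain ⟨T, C, h1, h2, h3⟩ := exists_sys (a := a) hf hS hP h𝒟 hnot hy₀
    (hH p d X Y f S w 𝒟 a hd hw hf hS hP h𝒟 hnot y₀ hy₀)
  obtain ⟨U, hU⟩ := Sys.exists_fam hf.continuous h3 (fun t ht => by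
    have k0 := (chartAt (Cm p) y₀).map_target (T.sub ht)
    have k1 : Tendsto (chartAt (Cm p) y₀) (𝓝 ((chartAt (Cm p) y₀).symm t)) (𝓝 t) := by
      have := ((chartAt (Cm p) y₀).continuousAt k0).tendsto
      rwa [(chartAt (Cm p) y₀).right_inv (T.sub ht)] at this
    refine k1.frequently ?_
    refine ((hfr _ (h2 t ht)).and_eventually
      ((chartAt (Cm p) y₀).open_source.mem_nhds k0)).mono ?_
    rintro y' ⟨⟨U, hU⟩, hy'⟩
    exact ⟨U, by rw [(chartAt (Cm p) y₀).left_inv hy']; exact hU⟩)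
  exact ⟨_, U, (chartAt (Cm p) y₀).isOpen_inter_preimage T.isOpen,
    ⟨mem_chart_source _ y₀, h1⟩, hU⟩

end Vale.Agent.P281.H389.TL
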