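import Vale.Agent.P281.H152.K.Smooth
import Vale.Agent.P281.H603.K.Lim
import Vale.Agent.P281.MF.Div
import Vale.Agent.P281.MF.Hol

/-!
# P281, project T-L, block B6 (helper389), part 1: systems of product charts with local equations
-/

open Set Filter Metric
open scoped Topology ContDiff Manifold

noncomputable section

namespace Vale.Agent.P281.H389.TL
open H64 H64.TK H152.K

section HV
variable {E : Type} [NormedAddCommGroup E] [NormedSpace ℂ E]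
variable {X : Type} [TopologicalSpace X] [ChartedSpace E X] [IsManifold 𝓘(ℂ, E) ω X]

theorem holV_zpow {u : X → ℂ} {x : X} (hu : HolV E u x) (h0 : u x ≠ 0) (k : ℤ) :
    HolV E (fun z => u z ^ k) x := by
  have h1 : AnalyticAt ℂ (fun z : ℂ => z ^ k) (u x) := by
    have := (analyticAt_id (𝕜 := ℂ) (z := u x)).zpow (n := k) h0
    exact this
  exact HolV.comp_contDiff (G := fun z : ℂ => z ^ k) h1.contDiffAt hu

end HV

variable {p d : ℕ} {X Y : Type} [TopologicalSpace X] [ChartedSpace (Cm (p + d)) X]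
  [TopologicalSpace Y]

/-- A system of product charts near a compact fibre, with local equations of the divisors. -/
structure Sys (f : X → Y) (χ : OpenPartialHomeomorph Y (Cm p)) (d : ℕ)
    [ChartedSpace (Cm (p + d)) X] (𝒟 : Finset (Set X)) where
  T : Set (Cm p)
  isOpen : IsOpen T
  sub : T ⊆ χ.target
  N : ℕ
  c : Fin N → OpenPartialHomeomorph X (Cm p × Cm d)
  prod : ∀ i, IsProd f χ (c i)
  tgt : ∀ i, T ×ˢ ball (0 : Cm d) 3 ⊆ (c i).target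
  cover : ∀ x, f x ∈ χ.source → χ (f x) ∈ T →
    ∃ (i : Fin N) (z : Cm d), ‖z‖ < 1 ∧ (c i).symm (χ (f x), z) = x
  e : Fin N → Set X → X → ℂ
  leq : ∀ i, ∀ x ∈ (c i).source, ∀ D ∈ 𝒟, J.IsLocalEq (Cm (p + d)) D (e i D) x
  i₀ : Fin N
  sec : ∀ t ∈ T, ∀ D ∈ 𝒟, (c i₀).symm (t, 0) ∉ D
  dense : ∀ i, ∀ t ∈ T, ∀ z ∈ ball (0 : Cm d) 3,
    ∃ᶠ z' in 𝓝 z, ∀ D ∈ 𝒟, (c i).symm (t, z') ∉ D
  closed : ∀ D ∈ 𝒟, IsClosed D
  conn : ∀ t ∈ T, IsPreconnected (f ⁻¹' {χ.symm t})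
  cpt : ∀ t ∈ T, IsCompact (f ⁻¹' {χ.symm t})

namespace Sys
variable {f : X → Y} {χ : OpenPartialHomeomorph Y (Cm p)} {𝒟 : Finset (Set X)}
  (S : Sys f χ d 𝒟)

/-- the point with coordinates `(t, z)` in the chart `i` -/
def s (i : Fin S.N) (t : Cm p) (z : Cm d) : X := (S.c i).symm (t, z)

theorem tgt' {i : Fin S.N} {t : Cm p} {z : Cm d} (ht : t ∈ S.T) (hz : z ∈ ball (0 : Cm d) 3) :
    (t, z) ∈ (S.c i).target := S.tgt i ⟨ht, hz⟩

theorem s_mem {i : Fin S.N} {t : Cm p} {z : Cm d} (ht : t ∈ S.T) (hz : z ∈ ball (0 : Cm d) 3) :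
    S.s i t z ∈ (S.c i).source := (S.c i).map_target (S.tgt' ht hz)

theorem c_s {i : Fin S.N} {t : Cm p} {z : Cm d} (ht : t ∈ S.T) (hz : z ∈ ball (0 : Cm d) 3) :
    S.c i (S.s i t z) = (t, z) := (S.c i).right_inv (S.tgt' ht hz)

theorem f_s {i : Fin S.N} {t : Cm p} {z : Cm d} (ht : t ∈ S.T) (hz : z ∈ ball (0 : Cm d) 3) :
    f (S.s i t z) ∈ χ.source ∧ χ (f (S.s i t z)) = t := by
  obtain ⟨h1, h2⟩ := (S.prod i).fst _ (S.s_mem (i := i) ht hz)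
  rw [S.c_s ht hz] at h2
  exact ⟨h1, h2.symm⟩

theorem f_s' {i : Fin S.N} {t : Cm p} {z : Cm d} (ht : t ∈ S.T) (hz : z ∈ ball (0 : Cm d) 3) :
    f (S.s i t z) = χ.symm t := by
  obtain ⟨h1, h2⟩ := S.f_s (i := i) ht hz
  calc f (S.s i t z) = χ.symm (χ (f (S.s i t z))) := (χ.left_inv h1).symm
    _ = χ.symm t := by rw [h2]

theorem s_cont {i : Fin S.N} {t : Cm p} {z : Cm d} (ht : t ∈ S.T) (hz : z ∈ ball (0 : Cm d) 3) :
    Tendsto (fun q : Cm p × Cm d => S.s i q.1 q.2) (𝓝 (t, z)) (𝓝 (S.s i t z)) :=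
  (S.c i).continuousAt_symm (S.tgt' ht hz)

theorem s_cont' {i : Fin S.N} {t : Cm p} {z : Cm d} (ht : t ∈ S.T) (hz : z ∈ ball (0 : Cm d) 3) :
    Tendsto (fun z' : Cm d => S.s i t z') (𝓝 z) (𝓝 (S.s i t z)) :=
  (S.s_cont ht hz).comp ((Continuous.prodMk_right t).tendsto z)

theorem s_c {i : Fin S.N} {x : X} (hx : x ∈ (S.c i).source) :
    S.s i (χ (f x)) (S.c i x).2 = x := by
  have h1 : (χ (f x), (S.c i x).2) = S.c i x := Prod.ext ((S.prod i).fst x hx).2.symm rfl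
  show (S.c i).symm (χ (f x), (S.c i x).2) = x
  rw [h1, (S.c i).left_inv hx]

/-- the change of the fibre coordinate -/
def θ (i j : Fin S.N) (q : Cm p × Cm d) : Cm d := (S.c j ((S.c i).symm q)).2

theorem trans {i j : Fin S.N} {t : Cm p} {z w : Cm d} (ht : t ∈ S.T)
    (hz : z ∈ ball (0 : Cm d) 3) (hw : w ∈ ball (0 : Cm d) 3) (h : S.s i t z = S.s j t w) :
    AnalyticAt ℂ (S.θ i j) (t, z) ∧ S.θ i j (t, z) = w ∧
      ∀ᶠ q in 𝓝 (t, z), q.1 ∈ S.T ∧ q.2 ∈ ball (0 : Cm d) 3 ∧ S.θ i j q ∈ ball (0 : Cm d) 3 ∧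
        S.s i q.1 q.2 = S.s j q.1 (S.θ i j q) := by
  have hs : (S.c i).symm (t, z) ∈ (S.c j).source := by
    show S.s i t z ∈ _
    rw [h]
    exact S.s_mem ht hw
  have h1 : AnalyticAt ℂ (S.θ i j) (t, z) :=
    analyticAt_snd.comp (trans_an (S.prod i) (S.prod j) (S.tgt' ht hz) hs)
  have h2 : S.θ i j (t, z) = w := by
    show (S.c j (S.s i t z)).2 = w
    rw [h, S.c_s ht hw]
  refine ⟨h1, h2, ?_⟩
  have e1 : ∀ᶠ q : Cm p × Cm d in 𝓝 (t, z), q.1 ∈ S.T :=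
    (continuous_fst.tendsto (t, z)).eventually (S.isOpen.mem_nhds ht)
  have e2 : ∀ᶠ q : Cm p × Cm d in 𝓝 (t, z), q.2 ∈ ball (0 : Cm d) 3 :=
    (continuous_snd.tendsto (t, z)).eventually (isOpen_ball.mem_nhds hz)
  have e3 : ∀ᶠ q : Cm p × Cm d in 𝓝 (t, z), S.θ i j q ∈ ball (0 : Cm d) 3 := by
    refine h1.continuousAt.eventually (isOpen_ball.mem_nhds ?_)
    rw [h2]; exact hw
  have e4 : ∀ᶠ q : Cm p × Cm d in 𝓝 (t, z), S.s i q.1 q.2 ∈ (S.c j).source :=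
    (S.s_cont ht hz).eventually ((S.c j).open_source.mem_nhds hs)
  filter_upwards [e1, e2, e3, e4] with q h3 h4 h5 h6
  refine ⟨h3, h4, h5, ?_⟩
  have h7 := S.s_c h6
  rw [(S.f_s (i := i) h3 h4).2] at h7
  exact h7.symm

theorem θ_eq {i j : Fin S.N} {t : Cm p} {z w : Cm d} (ht : t ∈ S.T)
    (hw : w ∈ ball (0 : Cm d) 3) (h : S.s i t z = S.s j t w) : S.θ i j (t, z) = w := by
  show (S.c j (S.s i t z)).2 = w
  rw [h, S.c_s ht hw]

variable (a : Set X → ℤ)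

/-- the equation of `∑ a D D` -/
def E (i : Fin S.N) (x : X) : ℂ := ∏ D ∈ 𝒟, S.e i D x ^ a D

theorem E_ne {i : Fin S.N} {x : X} (hx : x ∈ (S.c i).source) (hD : ∀ D ∈ 𝒟, x ∉ D) :
    S.E a i x ≠ 0 := by
  rw [E, Finset.prod_ne_zero_iff]
  intro D hD'
  refine zpow_ne_zero _ fun h0 => hD D hD' ?_
  exact (IsLocalEq.mem_iff (E := Cm (p + d)) (S.leq i x hx D hD')).2 h0

variable [IsManifold 𝓘(ℂ, Cm (p + d)) ω X]

theorem E_holV {i : Fin S.N} {x : X} (hx : x ∈ (S.c i).source) (hD : ∀ D ∈ 𝒟, x ∉ D) :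
    HolV (Cm (p + d)) (S.E a i) x := by
  refine HolV.prod fun D hD' => holV_zpow ?_ ?_ _
  · exact IsLocalEq.holAt (E := Cm (p + d)) (S.leq i x hx D hD')
  · intro h0
    exact hD D hD' ((IsLocalEq.mem_iff (E := Cm (p + d)) (S.leq i x hx D hD')).2 h0)

theorem exists_kappa {e e' : Set X → X → ℂ} {x : X}
    (h : ∀ D ∈ 𝒟, J.IsLocalEq (Cm (p + d)) D (e D) x)
    (h' : ∀ D ∈ 𝒟, J.IsLocalEq (Cm (p + d)) D (e' D) x) :
    ∃ κ : X → ℂ, HolV (Cm (p + d)) κ x ∧ κ x ≠ 0 ∧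
      ∀ᶠ x' in 𝓝 x, ∏ D ∈ 𝒟, e' D x' ^ a D = (∏ D ∈ 𝒟, e D x' ^ a D) * κ x' := by
  have h1 : ∀ D : Set X, ∃ u : X → ℂ, D ∈ 𝒟 → HolV (Cm (p + d)) u x ∧ u x ≠ 0 ∧
      ∀ᶠ z in 𝓝 x, e' D z = e D z * u z := by
    intro D
    by_cases hD : D ∈ 𝒟
    · obtain ⟨u, hu⟩ := MF.leq_unit (E := Cm (p + d)) (h D hD) (h' D hD)
      exact ⟨u, fun _ => hu⟩
    · exact ⟨0, fun hh => absurd hh hD⟩
  choose u hu using h1
  refine ⟨fun x' => ∏ D ∈ 𝒟, u D x' ^ a D, ?_, ?_, ?_⟩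
  · exact HolV.prod fun D hD => holV_zpow (hu D hD).1 (hu D hD).2.1 _
  · rw [Finset.prod_ne_zero_iff]
    exact fun D hD => zpow_ne_zero _ (hu D hD).2.1
  · have h2 : ∀ᶠ x' in 𝓝 x, ∀ D ∈ 𝒟, e' D x' = e D x' * u D x' := by
      rw [Filter.eventually_all_finset]
      exact fun D hD => (hu D hD).2.2
    filter_upwards [h2] with x' hx'
    rw [← Finset.prod_mul_distrib]
    refine Finset.prod_congr rfl fun D hD => ?_
    rw [hx' D hD, mul_zpow]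

/-- the ratio of the local equations of two charts -/
theorem kappa {i j : Fin S.N} {x : X} (hi : x ∈ (S.c i).source) (hj : x ∈ (S.c j).source) :
    ∃ κ : X → ℂ, HolV (Cm (p + d)) κ x ∧ κ x ≠ 0 ∧
      ∀ᶠ x' in 𝓝 x, S.E a j x' = S.E a i x' * κ x' :=
  exists_kappa a (S.leq i x hi) (S.leq j x hj)

end Sys

end Vale.Agent.P281.H389.TL
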