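import Vale.Agent.P281.H389.TL.Fam1

/-!
# P281, project T-L, block B6 (helper389), part 2: functions on the fibres; limits of units
-/

open Set Filter Metric
open scoped Topology ContDiff Manifold

noncomputable section

namespace Vale.Agent.P281.H389.TL
open H64 H64.TK H152.K

theorem eq_of_frequently {α : Type*} [TopologicalSpace α] {F G : α → ℂ} {x : α}
    (hF : ContinuousAt F x) (hG : ContinuousAt G x) (h : ∃ᶠ y in 𝓝 x, F y = G y) : F x = G x := by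
  by_contra hne
  have h1 : ∀ᶠ y in 𝓝 x, F y - G y ≠ 0 :=
    (hF.sub hG).eventually_ne (sub_ne_zero.2 hne)
  exact h (h1.mono fun y hy he => hy (sub_eq_zero.2 he))

variable {p d : ℕ} {X Y : Type} [TopologicalSpace X] [ChartedSpace (Cm (p + d)) X]
  [TopologicalSpace Y]

namespace Sys
variable {f : X → Y} {χ : OpenPartialHomeomorph Y (Cm p)} {𝒟 : Finset (Set X)}
  (S : Sys f χ d 𝒟)

theorem mem_fibre {t : Cm p} (ht : t ∈ S.T) {x : X} (hx : f x = χ.symm t) :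
    f x ∈ χ.source ∧ χ (f x) = t := by
  rw [hx]
  exact ⟨χ.map_target (S.sub ht), χ.right_inv (S.sub ht)⟩

theorem cover' {t : Cm p} (ht : t ∈ S.T) {x : X} (hx : f x = χ.symm t) :
    ∃ (i : Fin S.N) (z : Cm d), ‖z‖ < 1 ∧ S.s i t z = x := by
  obtain ⟨h1, h2⟩ := S.mem_fibre ht hx
  obtain ⟨i, z, hz, hz'⟩ := S.cover x h1 (by rw [h2]; exact ht)
  rw [h2] at hz'
  exact ⟨i, z, hz, hz'⟩

theorem near {i : Fin S.N} {t : Cm p} {z : Cm d} (ht : t ∈ S.T) (hz : z ∈ ball (0 : Cm d) 3) :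
    Tendsto (fun x => (S.c i x).2) (𝓝 (S.s i t z)) (𝓝 z) := by
  have h1 : ContinuousAt (S.c i) (S.s i t z) := (S.c i).continuousAt (S.s_mem ht hz)
  have h2 : Tendsto (fun x => (S.c i x).2) (𝓝 (S.s i t z)) (𝓝 (S.c i (S.s i t z)).2) :=
    (continuous_snd.tendsto _).comp h1
  rwa [S.c_s ht hz] at h2

theorem near' {i : Fin S.N} {t : Cm p} {z : Cm d} (ht : t ∈ S.T) (hz : z ∈ ball (0 : Cm d) 3)
    {r : ℝ} (hzr : z ∈ ball (0 : Cm d) r) :
    ∀ᶠ x in 𝓝 (S.s i t z), (S.c i x).2 ∈ ball (0 : Cm d) r ∧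
      (f x = χ.symm t → S.s i t (S.c i x).2 = x) := by
  filter_upwards [(S.near ht hz).eventually (isOpen_ball.mem_nhds hzr),
    (S.c i).open_source.mem_nhds (S.s_mem ht hz)] with x h1 h2
  refine ⟨h1, fun hx => ?_⟩
  have h3 := S.s_c h2
  rwa [(S.mem_fibre ht hx).2] at h3

/-- A holomorphic function on a compact connected fibre is constant. -/
theorem const_of_compat {t : Cm p} (ht : t ∈ S.T) {r : ℝ} (hr1 : 1 ≤ r) (hr3 : r ≤ 3)
    {v : Fin S.N → Cm d → ℂ} (hv : ∀ i, DifferentiableOn ℂ (v i) (ball 0 r))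
    (hc : ∀ i j, ∀ z ∈ ball (0 : Cm d) r, ∀ w ∈ ball (0 : Cm d) r, S.s i t z = S.s j t w →
      v i z = v j w) :
    ∀ i j, ∀ z ∈ ball (0 : Cm d) r, ∀ w ∈ ball (0 : Cm d) r, v i z = v j w := by
  set K : Set X := f ⁻¹' {χ.symm t} with hK
  have hsub : ball (0 : Cm d) r ⊆ ball 0 3 := ball_subset_ball hr3
  have h1 : ∀ x : K, ∃ (i : Fin S.N) (z : Cm d), ‖z‖ < 1 ∧ S.s i t z = x.1 := fun x =>
    S.cover' ht x.2
  choose I Z hZ hIZ using h1
  have hZr : ∀ x, Z x ∈ ball (0 : Cm d) r := fun x => by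
    rw [mem_ball_zero_iff]; exact (hZ x).trans_le hr1
  set g : K → ℂ := fun x => v (I x) (Z x) with hg
  have hg1 : ∀ (x : K) (i : Fin S.N) (z : Cm d), z ∈ ball (0 : Cm d) r → S.s i t z = x.1 →
      g x = v i z := fun x i z hz h => hc _ _ _ (hZr x) _ hz (by rw [hIZ, h])
  -- near a point
  have hloc : ∀ x : K, ∀ᶠ x' in 𝓝 x, (S.c (I x) x'.1).2 ∈ ball (0 : Cm d) r ∧
      g x' = v (I x) (S.c (I x) x'.1).2 := by
    intro x
    have h2 := S.near' (i := I x) (z := Z x) ht (hsub (hZr x)) (hZr x)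
    rw [hIZ] at h2
    have h3 : ∀ᶠ x' : K in 𝓝 x, (S.c (I x) x'.1).2 ∈ ball (0 : Cm d) r ∧
        (f x'.1 = χ.symm t → S.s (I x) t (S.c (I x) x'.1).2 = x'.1) :=
      (continuous_subtype_val.tendsto x).eventually h2
    filter_upwards [h3] with x' h4
    exact ⟨h4.1, hg1 x' _ _ h4.1 (h4.2 x'.2)⟩
  have hnear : ∀ x : K, Tendsto (fun x' : K => (S.c (I x) x'.1).2) (𝓝 x) (𝓝 (Z x)) := by
    intro x
    have h2 := S.near (i := I x) (z := Z x) ht (hsub (hZr x))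
    rw [hIZ] at h2
    exact h2.comp (continuous_subtype_val.tendsto x)
  have hgc : Continuous g := by
    rw [continuous_iff_continuousAt]
    intro x
    have h2 : ContinuousAt (v (I x)) (Z x) :=
      ((hv (I x)).differentiableAt (isOpen_ball.mem_nhds (hZr x))).continuousAt
    have h3 : Tendsto (fun x' : K => v (I x) (S.c (I x) x'.1).2) (𝓝 x) (𝓝 (v (I x) (Z x))) :=
      h2.tendsto.comp (hnear x)
    have h4 : g x = v (I x) (Z x) := rfl
    show Tendsto g (𝓝 x) (𝓝 (g x))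
    rw [h4]
    refine h3.congr' ?_
    filter_upwards [hloc x] with x' hx' using hx'.2.symm
  have : CompactSpace K := isCompact_iff_compactSpace.1 (S.cpt t ht)
  have : PreconnectedSpace K := isPreconnected_iff_preconnectedSpace.1 (S.conn t ht)
  have h03 : (0 : Cm d) ∈ ball (0 : Cm d) 3 := mem_ball_self (by norm_num)
  have : Nonempty K := ⟨⟨S.s S.i₀ t 0, S.f_s' ht h03⟩⟩
  obtain ⟨x₀, -, hx₀⟩ := isCompact_univ.exists_isMaxOn (univ_nonempty (α := K))
    hgc.norm.continuousOn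
  have hmax : ∀ x, ‖g x‖ ≤ ‖g x₀‖ := fun x => hx₀ (mem_univ x)
  have hcl : IsClopen {x | g x = g x₀} := by
    refine ⟨isClosed_eq hgc continuous_const, ?_⟩
    rw [isOpen_iff_mem_nhds]
    intro x hx
    have hx' : g x = g x₀ := hx
    have hE : EqOn (v (I x)) (Function.const _ (v (I x) (Z x))) (ball 0 r) := by
      refine Complex.eqOn_of_isPreconnected_of_isMaxOn_norm (convex_ball (0 : Cm d) r).isPreconnected
        isOpen_ball (hv (I x)) (hZr x) ?_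
      intro z hz
      show ‖v (I x) z‖ ≤ ‖v (I x) (Z x)‖
      have k1 := hg1 ⟨S.s (I x) t z, S.f_s' ht (hsub hz)⟩ (I x) z hz rfl
      have k2 : g x = v (I x) (Z x) := rfl
      rw [← k1, ← k2, hx']
      exact hmax _
    filter_upwards [hloc x] with x' h4
    show g x' = g x₀
    rw [h4.2, hE h4.1, ← hx']
    rfl
  have hall : ∀ x, g x = g x₀ := by
    have h2 := hcl.eq_univ ⟨x₀, rfl⟩
    intro x
    have h3 : x ∈ {x | g x = g x₀} := by rw [h2]; trivial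
    exact h3
  intro i j z hz w hw
  have k1 := hg1 ⟨S.s i t z, S.f_s' ht (hsub hz)⟩ i z hz rfl
  have k2 := hg1 ⟨S.s j t w, S.f_s' ht (hsub hw)⟩ j w hw rfl
  rw [← k1, ← k2]
  exact (hall _).trans (hall _).symm

variable (a : Set X → ℤ)

/-- The functions `G i` represent a normalised unit of the fibre over `χ⁻¹ t`. -/
structure Rp (C : ℝ) (t : Cm p) (G : Fin S.N → Cm d → ℂ) : Prop where
  hol : ∀ i, DifferentiableOn ℂ (G i) (ball 0 3)
  le : ∀ i, ∀ z ∈ ball (0 : Cm d) 3, ‖G i z‖ ≤ C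
  ge : ∀ i, ∀ z ∈ ball (0 : Cm d) 3, 1 ≤ C * ‖G i z‖
  rel : ∀ i j, ∀ z ∈ ball (0 : Cm d) 3, ∀ w ∈ ball (0 : Cm d) 3, S.s i t z = S.s j t w →
    (∀ D ∈ 𝒟, S.s i t z ∉ D) → G i z * S.E a i (S.s i t z) = G j w * S.E a j (S.s i t z)
  norm : G S.i₀ 0 * S.E a S.i₀ (S.s S.i₀ t 0) = 1

variable {S a} {C : ℝ} {t : Cm p} {G G' : Fin S.N → Cm d → ℂ}

theorem Rp.ne (h : S.Rp a C t G) {i : Fin S.N} {z : Cm d} (hz : z ∈ ball (0 : Cm d) 3) :
    G i z ≠ 0 := by
  intro h0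
  have := h.ge i z hz
  rw [h0, norm_zero, mul_zero] at this
  linarith

theorem Rp.cont (h : S.Rp a C t G) {i : Fin S.N} {z : Cm d} (hz : z ∈ ball (0 : Cm d) 3) :
    ContinuousAt (G i) z :=
  ((h.hol i).differentiableAt (isOpen_ball.mem_nhds hz)).continuousAt

variable [IsManifold 𝓘(ℂ, Cm (p + d)) ω X]

theorem Rp.rel' (h : S.Rp a C t G) (ht : t ∈ S.T) {i j : Fin S.N} {z w : Cm d}
    (hz : z ∈ ball (0 : Cm d) 3) (hw : w ∈ ball (0 : Cm d) 3) (hs : S.s i t z = S.s j t w)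
    {κ : X → ℂ} (hκ : HolV (Cm (p + d)) κ (S.s i t z))
    (hE : ∀ᶠ x in 𝓝 (S.s i t z), S.E a j x = S.E a i x * κ x) :
    G i z = G j w * κ (S.s i t z) := by
  obtain ⟨h1, h2, h3⟩ := S.trans ht hz hw hs
  have hm : Tendsto (fun z' : Cm d => (t, z')) (𝓝 z) (𝓝 (t, z)) :=
    (Continuous.prodMk_right t).tendsto z
  have hθ : Tendsto (fun z' : Cm d => S.θ i j (t, z')) (𝓝 z) (𝓝 w) := by
    have := h1.continuousAt.tendsto.comp hm
    rwa [h2] at this
  have hF : ContinuousAt (G i) z := h.cont hz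
  have hG : ContinuousAt (fun z' => G j (S.θ i j (t, z')) * κ (S.s i t z')) z := by
    have k1 : Tendsto (fun z' => G j (S.θ i j (t, z'))) (𝓝 z) (𝓝 (G j (S.θ i j (t, z)))) := by
      rw [h2]
      exact (h.cont hw).tendsto.comp hθ
    have k2 : Tendsto (fun z' => κ (S.s i t z')) (𝓝 z) (𝓝 (κ (S.s i t z))) :=
      hκ.continuousAt.tendsto.comp (S.s_cont' ht hz)
    exact k1.mul k2
  have h4 := eq_of_frequently hF hG (by
    refine ((S.dense i t ht z hz).and_eventually ((hm.eventually h3).and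
      ((S.s_cont' ht hz).eventually hE))).mono ?_
    rintro z' ⟨k1, ⟨-, k2, k3, k4⟩, k5⟩
    have k6 := h.rel i j z' k2 _ k3 k4 k1
    have k7 : S.E a i (S.s i t z') ≠ 0 := S.E_ne a (S.s_mem ht k2) k1
    rw [k5] at k6
    refine mul_right_cancel₀ k7 ?_
    rw [k6]
    ring)
  rw [h4, h2]

/-- Uniqueness of the normalised unit. -/
theorem Rp.unique (h : S.Rp a C t G) (h' : S.Rp a C t G') (ht : t ∈ S.T) (i : Fin S.N) {z : Cm d}
    (hz : z ∈ ball (0 : Cm d) 3) : G i z = G' i z := by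
  have h03 : (0 : Cm d) ∈ ball (0 : Cm d) 3 := mem_ball_self (by norm_num)
  have h1 := S.const_of_compat ht (r := 3) (by norm_num) le_rfl (v := fun i z => G i z / G' i z)
    (fun i => by
      have k1 := (h.hol i).mul ((h'.hol i).inv fun z hz => h'.ne hz)
      exact k1.congr fun z _ => div_eq_mul_inv _ _) (by
      intro i j z hz w hw hs
      obtain ⟨κ, k1, k2, k3⟩ := S.kappa a (S.s_mem (i := i) ht hz)
        (j := j) (by rw [hs]; exact S.s_mem ht hw)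
      beta_reduce
      rw [h.rel' ht hz hw hs k1 k3, h'.rel' ht hz hw hs k1 k3, mul_div_mul_right _ _ k2])
    i S.i₀ z hz 0 h03
  beta_reduce at h1
  have h2 : G S.i₀ 0 = G' S.i₀ 0 := by
    have k1 := h.norm
    rw [← h'.norm] at k1
    refine mul_right_cancel₀ (S.E_ne a (S.s_mem ht h03) (S.sec t ht)) k1
  rw [h2, div_self (h'.ne h03), div_eq_one_iff_eq (h'.ne hz)] at h1
  exact h1

/-- Limits of normalised units. -/
theorem Rp.limit {ι : Type*} (U : Ultrafilter ι) {t : ι → Cm p} {t₁ : Cm p} (ht₁ : t₁ ∈ S.T)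
    (hlim : Tendsto t U (𝓝 t₁)) {G : ι → Fin S.N → Cm d → ℂ}
    (hG : ∀ᶠ k in (U : Filter ι), S.Rp a C (t k) (G k)) :
    ∃ v, S.Rp a C t₁ v ∧ ∀ i, ∀ z ∈ ball (0 : Cm d) 3,
      Tendsto (fun q : ι × Cm d => G q.1 i q.2) ((U : Filter ι) ×ˢ 𝓝 z) (𝓝 (v i z)) := by
  have h1 : ∀ i, ∃ v : Cm d → ℂ, DifferentiableOn ℂ v (ball 0 3) ∧ ∀ z ∈ ball (0 : Cm d) 3,
      Tendsto (fun q : ι × Cm d => G q.1 i q.2) ((U : Filter ι) ×ˢ 𝓝 z) (𝓝 (v z)) := fun i =>
    H603.K.exists_limit U (f := fun k => G k i) (R := 3) (C := C)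
      (hG.mono fun k hk => hk.hol i) (hG.mono fun k hk => hk.le i)
  choose v hv hvl using h1
  have hT : ∀ᶠ k in (U : Filter ι), t k ∈ S.T := hlim.eventually (S.isOpen.mem_nhds ht₁)
  have hpt : ∀ i, ∀ z ∈ ball (0 : Cm d) 3, ∀ z' : ι → Cm d, Tendsto z' U (𝓝 z) →
      Tendsto (fun k => G k i (z' k)) U (𝓝 (v i z)) := fun i z hz z' hz' =>
    (hvl i z hz).comp (tendsto_id.prodMk hz')
  have hEl : ∀ i j, ∀ z ∈ ball (0 : Cm d) 3, S.s i t₁ z ∈ (S.c j).source →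
      (∀ D ∈ 𝒟, S.s i t₁ z ∉ D) →
      Tendsto (fun k => S.E a j (S.s i (t k) z)) U (𝓝 (S.E a j (S.s i t₁ z))) := by
    intro i j z hz hj hD
    have k1 : Tendsto (fun k => (t k, z)) (U : Filter ι) (𝓝 (t₁, z)) :=
      hlim.prodMk_nhds tendsto_const_nhds
    exact (S.E_holV a hj hD).continuousAt.tendsto.comp ((S.s_cont ht₁ hz).comp k1)
  refine ⟨v, ⟨hv, fun i z hz => ?_, fun i z hz => ?_, fun i j z hz w hw hs hD => ?_, ?_⟩, hvl⟩
  · exact le_of_tendsto (hpt i z hz _ tendsto_const_nhds).norm (hG.mono fun k hk => hk.le i z hz)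
  · exact ge_of_tendsto ((hpt i z hz _ tendsto_const_nhds).norm.const_mul C)
      (hG.mono fun k hk => hk.ge i z hz)
  · obtain ⟨k1, k2, k3⟩ := S.trans ht₁ hz hw hs
    have k4 : Tendsto (fun k => (t k, z)) (U : Filter ι) (𝓝 (t₁, z)) :=
      hlim.prodMk_nhds tendsto_const_nhds
    have k5 : Tendsto (fun k => S.θ i j (t k, z)) (U : Filter ι) (𝓝 w) := by
      have := k1.continuousAt.tendsto.comp k4
      rwa [k2] at this
    have k6 := (hpt i z hz _ tendsto_const_nhds).mul (hEl i i z hz (S.s_mem ht₁ hz) hD)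
    have k7 := (hpt j w hw _ k5).mul (hEl i j z hz (by rw [hs]; exact S.s_mem ht₁ hw) hD)
    have hD' : ∀ᶠ k in (U : Filter ι), ∀ D ∈ 𝒟, S.s i (t k) z ∉ D := by
      rw [Filter.eventually_all_finset]
      intro D hD'
      exact ((S.s_cont ht₁ hz).comp k4).eventually
        ((S.closed D hD').isOpen_compl.mem_nhds (hD D hD'))
    refine tendsto_nhds_unique (k6.congr' ?_) k7
    filter_upwards [hG, k4.eventually k3, hD'] with k m1 m2 m3
    exact m1.rel i j z hz _ m2.2.2.1 m2.2.2.2 m3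
  · have h03 : (0 : Cm d) ∈ ball (0 : Cm d) 3 := mem_ball_self (by norm_num)
    refine tendsto_nhds_unique ((hpt S.i₀ 0 h03 _ tendsto_const_nhds).mul
      (hEl S.i₀ S.i₀ 0 h03 (S.s_mem ht₁ h03) (S.sec t₁ ht₁))) ?_
    exact tendsto_const_nhds.congr' (hG.mono fun k hk => hk.norm.symm)

end Sys

end Vale.Agent.P281.H389.TL
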