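import Vale.Agent.P281.H389.TL.Fam2

/-!
# P281, project T-L, block B6 (helper389), part 3: convergence of functions on the fibres with
given jumps (after helper603, `H603/K/{Bound,Conv}.lean`)
-/

open Set Filter Metric
open scoped Topology ContDiff Manifold

noncomputable section

namespace Vale.Agent.P281.H389.TL
open H64 H64.TK H152.K

theorem tendsto_of_prod {d : ℕ} {ι : Type*} {l : Filter ι} {f : ι → Cm d → ℂ} {z : Cm d} {y : ℂ}
    (h : Tendsto (fun q : ι × Cm d => f q.1 q.2) (l ×ˢ 𝓝 z) (𝓝 y)) {z' : ι → Cm d}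
    (hz : Tendsto z' l (𝓝 z)) : Tendsto (fun k => f k (z' k)) l (𝓝 y) :=
  h.comp (tendsto_id.prodMk hz)

variable {p d : ℕ} {X Y : Type} [TopologicalSpace X] [ChartedSpace (Cm (p + d)) X]
  [TopologicalSpace Y]

namespace Sys
variable {f : X → Y} {χ : OpenPartialHomeomorph Y (Cm p)} {𝒟 : Finset (Set X)}
  (S : Sys f χ d 𝒟)

/-- Functions `u k i` on the fibres over `t k → t₁`, with jumps which converge to `B`. -/
structure Sq {ι : Type*} (l : Filter ι) (t : ι → Cm p) (t₁ : Cm p)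
    (u : ι → Fin S.N → Cm d → ℂ) (B : Fin S.N → Fin S.N → Cm d → Cm d → ℂ) : Prop where
  lim : Tendsto t l (𝓝 t₁)
  hol : ∀ᶠ k in l, ∀ i, DifferentiableOn ℂ (u k i) (ball 0 3)
  rel : ∀ i j, ∀ z ∈ ball (0 : Cm d) 3, ∀ w ∈ ball (0 : Cm d) 3, S.s i t₁ z = S.s j t₁ w →
    ∀ U : Ultrafilter ι, (U : Filter ι) ≤ l → ∀ z' w' : ι → Cm d,
      Tendsto z' U (𝓝 z) → Tendsto w' U (𝓝 w) →
      (∀ᶠ k in (U : Filter ι), S.s i (t k) (z' k) = S.s j (t k) (w' k)) →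
      Tendsto (fun k => u k i (z' k) - u k j (w' k)) U (𝓝 (B i j z w))

variable {S}

theorem Sq.mono {ι : Type*} {l l' : Filter ι} {t : ι → Cm p} {t₁ : Cm p}
    {u : ι → Fin S.N → Cm d → ℂ} {B : Fin S.N → Fin S.N → Cm d → Cm d → ℂ}
    (H : S.Sq l t t₁ u B) (h : l' ≤ l) : S.Sq l' t t₁ u B :=
  ⟨H.lim.mono_left h, H.hol.filter_mono h, fun i j z hz w hw hs U hU =>
    H.rel i j z hz w hw hs U (hU.trans h)⟩

/-- Limits along an ultrafilter of bounded data. -/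
theorem exists_limits {ι : Type*} (U : Ultrafilter ι) {t : ι → Cm p} {t₁ : Cm p}
    (ht₁ : t₁ ∈ S.T) {u : ι → Fin S.N → Cm d → ℂ} {B : Fin S.N → Fin S.N → Cm d → Cm d → ℂ}
    (H : S.Sq (U : Filter ι) t t₁ u B) {C : ℝ}
    (hC : ∀ᶠ k in (U : Filter ι), ∀ i, ∀ z ∈ closedBall (0 : Cm d) 2, ‖u k i z‖ ≤ C) :
    ∃ v : Fin S.N → Cm d → ℂ, (∀ i, DifferentiableOn ℂ (v i) (ball 0 2)) ∧
      (∀ i, ∀ z ∈ ball (0 : Cm d) 2,
        Tendsto (fun q : ι × Cm d => u q.1 i q.2) ((U : Filter ι) ×ˢ 𝓝 z) (𝓝 (v i z))) ∧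
      ∀ i j, ∀ z ∈ ball (0 : Cm d) 2, ∀ w ∈ ball (0 : Cm d) 2, S.s i t₁ z = S.s j t₁ w →
        v i z - v j w = B i j z w := by
  have h1 : ∀ i, ∃ v : Cm d → ℂ, DifferentiableOn ℂ v (ball 0 2) ∧ ∀ z ∈ ball (0 : Cm d) 2,
      Tendsto (fun q : ι × Cm d => u q.1 i q.2) ((U : Filter ι) ×ˢ 𝓝 z) (𝓝 (v z)) := by
    intro i
    refine H603.K.exists_limit U (f := fun k => u k i) (R := 2) (C := C) ?_ ?_
    · filter_upwards [H.hol] with k hk using (hk i).mono (ball_subset_ball (by norm_num))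
    · filter_upwards [hC] with k hk z hz using hk i z (ball_subset_closedBall hz)
  choose v hv hvl using h1
  refine ⟨v, hv, hvl, fun i j z hz w hw h => ?_⟩
  have hz3 : z ∈ ball (0 : Cm d) 3 := ball_subset_ball (by norm_num) hz
  have hw3 : w ∈ ball (0 : Cm d) 3 := ball_subset_ball (by norm_num) hw
  obtain ⟨k1, k2, k3⟩ := S.trans ht₁ hz3 hw3 h
  have k4 : Tendsto (fun k => (t k, z)) (U : Filter ι) (𝓝 (t₁, z)) :=
    H.lim.prodMk_nhds tendsto_const_nhds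
  have k5 : Tendsto (fun k => S.θ i j (t k, z)) (U : Filter ι) (𝓝 w) := by
    have := k1.continuousAt.tendsto.comp k4
    rwa [k2] at this
  have k6 := H.rel i j z hz3 w hw3 h U le_rfl (fun _ => z) (fun k => S.θ i j (t k, z))
    tendsto_const_nhds k5 (by
      filter_upwards [k4.eventually k3] with k hk using hk.2.2.2)
  refine tendsto_nhds_unique ?_ k6
  have k7 : Tendsto (fun k => u k i z) U (𝓝 (v i z)) :=
    tendsto_of_prod (f := fun k => u k i) (hvl i z hz) tendsto_const_nhds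
  have k8 : Tendsto (fun k => u k j (S.θ i j (t k, z))) U (𝓝 (v j w)) :=
    tendsto_of_prod (f := fun k => u k j) (hvl j w hw) k5
  exact k7.sub k8

theorem exists_max (i₀ : Fin S.N) {u : Fin S.N → Cm d → ℂ}
    (hu : ∀ i, ContinuousOn (u i) (closedBall 0 2)) :
    ∃ m : ℝ, (∀ i, ∀ z ∈ closedBall (0 : Cm d) 2, ‖u i z‖ ≤ m) ∧
      ∃ i, ∃ z ∈ closedBall (0 : Cm d) 2, ‖u i z‖ = m := by
  have h1 : ∀ i, ∃ z ∈ closedBall (0 : Cm d) 2, IsMaxOn (fun z => ‖u i z‖) (closedBall 0 2) z :=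
    fun i => (isCompact_closedBall (0 : Cm d) 2).exists_isMaxOn ⟨0, by simp⟩ (hu i).norm
  choose z hz hmax using h1
  have : Nonempty (Fin S.N) := ⟨i₀⟩
  obtain ⟨x, hx⟩ := Finite.exists_max (fun i => ‖u i (z i)‖)
  exact ⟨_, fun i w hw => (hmax i hw).trans (hx i), x, z x, hz x, rfl⟩

variable [T2Space X]

/-- **Boundedness.** -/
theorem bdd {ι : Type*} (U : Ultrafilter ι) {t : ι → Cm p} {t₁ : Cm p} (ht₁ : t₁ ∈ S.T)
    {u : ι → Fin S.N → Cm d → ℂ} {B : Fin S.N → Fin S.N → Cm d → Cm d → ℂ}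
    (H : S.Sq (U : Filter ι) t t₁ u B) {C₀ : ℝ}
    (h0 : ∀ᶠ k in (U : Filter ι), ‖u k S.i₀ 0‖ ≤ C₀) :
    ∃ C : ℝ, ∀ᶠ k in (U : Filter ι), ∀ i, ∀ z ∈ closedBall (0 : Cm d) 2, ‖u k i z‖ ≤ C := by
  classical
  -- the maximum
  have hex : ∀ k, ∃ m : ℝ, (∀ i, DifferentiableOn ℂ (u k i) (ball 0 3)) →
      (∀ i, ∀ z ∈ closedBall (0 : Cm d) 2, ‖u k i z‖ ≤ m) ∧
      ∃ i, ∃ z ∈ closedBall (0 : Cm d) 2, ‖u k i z‖ = m := by
    intro k
    by_cases hk : ∀ i, DifferentiableOn ℂ (u k i) (ball 0 3)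
    · obtain ⟨m, hm⟩ := exists_max (S := S) S.i₀ (u := u k)
        (fun i => ((hk i).mono (closedBall_subset_ball (by norm_num))).continuousOn)
      exact ⟨m, fun _ => hm⟩
    · exact ⟨0, fun h => absurd h hk⟩
  choose m hm using hex
  by_contra hcon
  rw [not_exists] at hcon
  have hbig : ∀ C : ℝ, ∀ᶠ k in (U : Filter ι), C < m k := by
    intro C
    have h1 := hcon C
    by_contra h2
    rw [← Ultrafilter.frequently_iff_eventually] at h2
    rw [not_frequently] at h2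
    refine h1 ?_
    filter_upwards [h2, H.hol] with k k1 k2
    obtain ⟨k3, -⟩ := hm k k2
    push Not at k1
    exact fun i z hz => (k3 i z hz).trans k1
  have hminf : Tendsto m U atTop := tendsto_atTop.2 fun C => (hbig C).mono fun k hk => hk.le
  have hinv : Tendsto (fun k => ((m k : ℂ))⁻¹) U (𝓝 0) := by
    have h1 : Tendsto (fun k => (m k)⁻¹) U (𝓝 0) := tendsto_inv_atTop_zero.comp hminf
    have h2 := (Complex.continuous_ofReal.tendsto 0).comp h1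
    simpa [Function.comp_def] using h2
  -- the normalised data
  set u' : ι → Fin S.N → Cm d → ℂ := fun k i z => (m k : ℂ)⁻¹ * u k i z with hu'
  have H' : S.Sq (U : Filter ι) t t₁ u' (fun _ _ _ _ => 0) := by
    refine ⟨H.lim, ?_, ?_⟩
    · filter_upwards [H.hol] with k hk i using (hk i).const_mul _
    · intro i j z hz w hw hs V hV z' w' hz' hw' hr
      have h1 := H.rel i j z hz w hw hs V hV z' w' hz' hw' hr
      have h2 := (hinv.mono_left hV).mul h1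
      rw [zero_mul] at h2
      refine h2.congr fun k => ?_
      simp only [hu']
      ring
  have hpos : ∀ᶠ k in (U : Filter ι), 0 < m k := hbig 0
  have hC' : ∀ᶠ k in (U : Filter ι),
      ∀ i, ∀ z ∈ closedBall (0 : Cm d) 2, ‖u' k i z‖ ≤ 1 := by
    filter_upwards [hpos, H.hol] with k k1 k2
    obtain ⟨k3, -⟩ := hm k k2
    have k5 : ‖(m k : ℂ)⁻¹‖ = (m k)⁻¹ := by
      rw [norm_inv, Complex.norm_real, Real.norm_of_nonneg k1.le]
    intro i z hz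
    simp only [hu', norm_mul, k5]
    rw [inv_mul_le_iff₀ k1, mul_one]
    exact k3 i z hz
  obtain ⟨v, hv, hvl, hrel⟩ := exists_limits U ht₁ H' hC'
  -- the limit is zero
  have h02 : (0 : Cm d) ∈ ball (0 : Cm d) 2 := mem_ball_self (by norm_num)
  have hv0 : v S.i₀ 0 = 0 := by
    have h1 : Tendsto (fun k => u' k S.i₀ 0) U (𝓝 (v S.i₀ 0)) :=
      tendsto_of_prod (f := fun k => u' k S.i₀) (hvl S.i₀ 0 h02) tendsto_const_nhds
    refine tendsto_nhds_unique h1 ?_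
    refine hinv.zero_mul_isBoundedUnder_le ?_
    exact ⟨C₀, by simpa using h0⟩
  have hvz : ∀ i, ∀ z ∈ ball (0 : Cm d) 2, v i z = 0 := by
    intro i z hz
    rw [← hv0]
    exact S.const_of_compat ht₁ (r := 2) (by norm_num) (by norm_num) hv
      (fun i j z hz w hw hs => sub_eq_zero.1 (hrel i j z hz w hw hs)) i S.i₀ z hz 0 h02
  -- the maximum is attained
  have hatt : ∀ᶠ k in (U : Filter ι), ∃ i, ∃ z ∈ closedBall (0 : Cm d) 2, ‖u' k i z‖ = 1 := by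
    filter_upwards [hpos, H.hol] with k k1 k2
    obtain ⟨-, i, z, hz, hl⟩ := hm k k2
    have k5 : ‖(m k : ℂ)⁻¹‖ = (m k)⁻¹ := by
      rw [norm_inv, Complex.norm_real, Real.norm_of_nonneg k1.le]
    refine ⟨i, z, hz, ?_⟩
    simp only [hu', norm_mul, k5]
    rw [hl, inv_mul_cancel₀ k1.ne']
  obtain ⟨i, hi⟩ := Ultrafilter.eventually_exists_iff.1 hatt
  have h2 : ∀ k, ∃ z : Cm d, (∃ z ∈ closedBall (0 : Cm d) 2, ‖u' k i z‖ = 1) →
      (z ∈ closedBall (0 : Cm d) 2 ∧ ‖u' k i z‖ = 1) := fun k => by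
    by_cases h : ∃ z ∈ closedBall (0 : Cm d) 2, ‖u' k i z‖ = 1
    · obtain ⟨z, hz⟩ := h
      exact ⟨z, fun _ => hz⟩
    · exact ⟨0, fun h' => absurd h' h⟩
  choose z hz using h2
  have hz2 : ∀ᶠ k in (U : Filter ι), ‖z k‖ ≤ 2 := by
    filter_upwards [hi] with k hk using by simpa using (hz k hk).1
  obtain ⟨z₀, hz₀2, hz₀⟩ := H603.K.exists_lim_of_bound U hz2
  have htT : ∀ᶠ k in (U : Filter ι), t k ∈ S.T := H.lim.eventually (S.isOpen.mem_nhds ht₁)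
  have hb3 : ∀ {z : Cm d}, ‖z‖ ≤ 2 → z ∈ ball (0 : Cm d) 3 := fun h => by
    rw [mem_ball_zero_iff]; linarith
  have h3 : ∀ k, ∃ (j : Fin S.N) (w : Cm d), t k ∈ S.T → ‖z k‖ ≤ 2 →
      (‖w‖ < 1 ∧ S.s i (t k) (z k) = S.s j (t k) w) := fun k => by
    by_cases h : t k ∈ S.T ∧ ‖z k‖ ≤ 2
    · obtain ⟨j, w, hw, hw'⟩ := S.cover' h.1 (S.f_s' (i := i) h.1 (hb3 h.2))
      exact ⟨j, w, fun _ _ => ⟨hw, hw'.symm⟩⟩
    · exact ⟨S.i₀, 0, fun h' h'' => absurd ⟨h', h''⟩ h⟩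
  choose j' w hw using h3
  obtain ⟨j, hj⟩ := H603.K.eventually_const_of_finite U j'
  have hw1 : ∀ᶠ k in (U : Filter ι), ‖w k‖ ≤ 1 := by
    filter_upwards [htT, hz2] with k hk hk' using (hw k hk hk').1.le
  obtain ⟨w₀, hw₀1, hw₀⟩ := H603.K.exists_lim_of_bound U hw1
  have hz₀3 : z₀ ∈ ball (0 : Cm d) 3 := hb3 hz₀2
  have hw₀3 : w₀ ∈ ball (0 : Cm d) 3 := hb3 (by linarith)
  have hw₀2 : w₀ ∈ ball (0 : Cm d) 2 := by rw [mem_ball_zero_iff]; linarith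
  have hr1 : ∀ᶠ k in (U : Filter ι), S.s i (t k) (z k) = S.s j (t k) (w k) := by
    filter_upwards [htT, hj, hz2] with k k1 k2 k3
    rw [← k2]
    exact (hw k k1 k3).2
  have hr0 : S.s i t₁ z₀ = S.s j t₁ w₀ :=
    tendsto_nhds_unique (((S.s_cont ht₁ hz₀3).comp (H.lim.prodMk_nhds hz₀)).congr' hr1)
      ((S.s_cont ht₁ hw₀3).comp (H.lim.prodMk_nhds hw₀))
  have h4 := H'.rel i j z₀ hz₀3 w₀ hw₀3 hr0 U le_rfl z w hz₀ hw₀ hr1
  have h5 : Tendsto (fun k => u' k j (w k)) U (𝓝 (v j w₀)) :=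
    tendsto_of_prod (f := fun k => u' k j) (hvl j w₀ hw₀2) hw₀
  have h6 := h4.add h5
  rw [hvz j w₀ hw₀2, add_zero] at h6
  have h7 : Tendsto (fun k => u' k i (z k)) U (𝓝 0) := by
    refine h6.congr fun k => ?_
    ring
  have h8 := h7.norm
  rw [norm_zero] at h8
  have h9 : Tendsto (fun k => ‖u' k i (z k)‖) U (𝓝 1) :=
    tendsto_const_nhds.congr' (hi.mono fun k hk => (hz k hk).2.symm)
  exact zero_ne_one (tendsto_nhds_unique h8 h9)

/-- **Convergence.** -/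
theorem conv {ι : Type*} {l : Filter ι} [l.NeBot] {t : ι → Cm p} {t₁ : Cm p} (ht₁ : t₁ ∈ S.T)
    {u : ι → Fin S.N → Cm d → ℂ} {B : Fin S.N → Fin S.N → Cm d → Cm d → ℂ}
    (H : S.Sq l t t₁ u B) {a₀ : ℂ} (h0 : Tendsto (fun k => u k S.i₀ 0) l (𝓝 a₀)) :
    ∃ v : Fin S.N → Cm d → ℂ, (∀ i, DifferentiableOn ℂ (v i) (ball 0 2)) ∧
      (∀ i, ∀ z ∈ ball (0 : Cm d) 2,
        Tendsto (fun q : ι × Cm d => u q.1 i q.2) (l ×ˢ 𝓝 z) (𝓝 (v i z))) ∧
      ∀ i j, ∀ z ∈ ball (0 : Cm d) 2, ∀ w ∈ ball (0 : Cm d) 2, S.s i t₁ z = S.s j t₁ w →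
        v i z - v j w = B i j z w := by
  have h02 : (0 : Cm d) ∈ ball (0 : Cm d) 2 := mem_ball_self (by norm_num)
  have hex : ∀ U : Ultrafilter ι, (U : Filter ι) ≤ l →
      ∃ v : Fin S.N → Cm d → ℂ, (∀ i, DifferentiableOn ℂ (v i) (ball 0 2)) ∧
      (∀ i, ∀ z ∈ ball (0 : Cm d) 2,
        Tendsto (fun q : ι × Cm d => u q.1 i q.2) ((U : Filter ι) ×ˢ 𝓝 z) (𝓝 (v i z))) ∧
      ∀ i j, ∀ z ∈ ball (0 : Cm d) 2, ∀ w ∈ ball (0 : Cm d) 2, S.s i t₁ z = S.s j t₁ w →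
        v i z - v j w = B i j z w := by
    intro U hU
    have HU := H.mono hU
    have hC₂ : ∀ᶠ k in (U : Filter ι), ‖u k S.i₀ 0‖ ≤ ‖a₀‖ + 1 := by
      filter_upwards [(h0.mono_left hU).norm.eventually
        (ge_mem_nhds (show ‖a₀‖ < ‖a₀‖ + 1 by linarith))] with k hk using hk
    obtain ⟨C, hC⟩ := bdd U ht₁ HU hC₂
    exact exists_limits U ht₁ HU hC
  obtain ⟨v, hv, hvl, hrel⟩ := hex (Ultrafilter.of l) (Ultrafilter.of_le l)
  -- uniqueness
  have huniq : ∀ U : Ultrafilter ι, (U : Filter ι) ≤ l → ∀ i, ∀ z ∈ ball (0 : Cm d) 2,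
        Tendsto (fun q : ι × Cm d => u q.1 i q.2) ((U : Filter ι) ×ˢ 𝓝 z) (𝓝 (v i z)) := by
    intro U hU
    obtain ⟨v', hv', hvl', hrel'⟩ := hex U hU
    have k0 : v' S.i₀ 0 - v S.i₀ 0 = 0 := by
      have k1 : Tendsto (fun k => u k S.i₀ 0) U (𝓝 (v' S.i₀ 0)) :=
        tendsto_of_prod (f := fun k => u k S.i₀) (hvl' S.i₀ 0 h02) tendsto_const_nhds
      have k2 : Tendsto (fun k => u k S.i₀ 0) (Ultrafilter.of l : Filter ι) (𝓝 (v S.i₀ 0)) :=
        tendsto_of_prod (f := fun k => u k S.i₀) (hvl S.i₀ 0 h02) tendsto_const_nhds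
      rw [tendsto_nhds_unique k1 (h0.mono_left hU),
        tendsto_nhds_unique k2 (h0.mono_left (Ultrafilter.of_le l)), sub_self]
    intro i z hz
    have k3 : v' i z - v i z = 0 := by
      rw [← k0]
      exact S.const_of_compat ht₁ (r := 2) (by norm_num) (by norm_num)
        (v := fun i z => v' i z - v i z) (fun i => (hv' i).sub (hv i))
        (fun i j z hz w hw hs => by
          have k1 := hrel i j z hz w hw hs
          have k2 := hrel' i j z hz w hw hs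
          linear_combination k2 - k1) i S.i₀ z hz 0 h02
    rw [← sub_eq_zero.1 k3]
    exact hvl' i z hz
  refine ⟨v, hv, fun i z hz => ?_, hrel⟩
  rw [tendsto_iff_ultrafilter]
  intro W hW
  have h1 : ((W.map Prod.fst : Ultrafilter ι) : Filter ι) ≤ l := by
    rw [Ultrafilter.coe_map]
    exact (Filter.map_mono hW).trans (by
      have := tendsto_fst (f := l) (g := 𝓝 z)
      exact this)
  have h2 : (W : Filter (ι × Cm d)) ≤ ((W.map Prod.fst : Ultrafilter ι) : Filter ι) ×ˢ 𝓝 z := by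
    rw [Filter.prod_eq_inf, le_inf_iff]
    refine ⟨?_, ?_⟩
    · rw [Ultrafilter.coe_map]
      exact le_comap_map
    · exact hW.trans (by rw [Filter.prod_eq_inf]; exact inf_le_right)
  exact (huniq _ h1 i z hz).mono_left h2

end Sys

end Vale.Agent.P281.H389.TL
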