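import Vale.Agent.P281.H389.TL.Fam3

/-!
# P281, project T-L, block B6 (helper389), part 4: the normalised units depend holomorphically on `t`
(`osgood_dir` is a copy of helper603's)
-/

open Set Filter Metric
open scoped Topology ContDiff Manifold

noncomputable section

namespace Vale.Agent.P281.H389.TL
open H64 H64.TK H152.K

/-- Osgood on a finite-dimensional space: continuous and differentiable in the directions of a
basis implies differentiable. (helper603, `H603/K/Dep2.lean`) -/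
theorem osgood_dir {V : Type*} [NormedAddCommGroup V] [NormedSpace ℂ V] [FiniteDimensional ℂ V]
    {κ : Type*} [Finite κ] (b : Module.Basis κ ℂ V) {O : Set V} (hO : IsOpen O) {f : V → ℂ}
    (hc : ∀ x ∈ O, ContinuousAt f x)
    (hd : ∀ x ∈ O, ∀ k, DifferentiableAt ℂ (fun s : ℂ => f (x + s • b k)) 0) :
    DifferentiableOn ℂ f O := by
  have := Fintype.ofFinite κ
  set n := Fintype.card κ with hn
  set b' : Module.Basis (Fin n) ℂ V := b.reindex (Fintype.equivFin κ) with hb'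
  set e : V ≃L[ℂ] (Fin n → ℂ) := b'.equivFunL with he
  have he1 : ∀ i, e.symm (Pi.single i 1) = b' i := by
    intro i
    rw [ContinuousLinearEquiv.symm_apply_eq]
    funext j
    simp [he, Pi.single_apply, Finsupp.single_apply, eq_comm]
  set g : (Fin n → ℂ) → ℂ := fun y => f (e.symm y) with hg
  have hO' : IsOpen (e.symm ⁻¹' O) := hO.preimage e.symm.continuous
  have h1 : DifferentiableOn ℂ g (e.symm ⁻¹' O) := by
    refine P272.GEO.osgood hO' (fun y hy => ?_) fun y hy i => ?_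
    · exact (ContinuousAt.comp (g := f) (hc _ hy) e.symm.continuous.continuousAt).continuousWithinAt
    · have h2 := hd (e.symm y) hy ((Fintype.equivFin κ).symm i)
      have h3 : b ((Fintype.equivFin κ).symm i) = e.symm (Pi.single i 1) := by
        rw [he1, hb', Module.Basis.reindex_apply]
      rw [h3] at h2
      have h4 : DifferentiableAt ℂ (fun τ : ℂ => τ - y i) (y i) := by fun_prop
      have h5 : DifferentiableAt ℂ (fun s : ℂ => f (e.symm y + s • e.symm (Pi.single i 1)))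
          ((fun τ : ℂ => τ - y i) (y i)) := by simpa using h2
      have h6 := DifferentiableAt.comp
        (g := fun s : ℂ => f (e.symm y + s • e.symm (Pi.single i 1)))
        (f := fun τ : ℂ => τ - y i) (y i) h5 h4
      have h7 : (fun τ : ℂ => g (Function.update y i τ)) =
          (fun s : ℂ => f (e.symm y + s • e.symm (Pi.single i 1))) ∘ fun τ : ℂ => τ - y i := by
        funext τ
        simp only [Function.comp_apply, hg]
        rw [← map_smul, ← map_add]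
        congr 2
        funext j
        by_cases hj : j = i
        · subst hj; simp
        · simp [hj]
      rw [h7]
      exact h6
  intro x hx
  have h2 : DifferentiableAt ℂ g (e x) := h1.differentiableAt (hO'.mem_nhds (by
    show e.symm (e x) ∈ O
    rwa [e.symm_apply_apply]))
  have h3 : f = g ∘ e := by
    funext y
    simp [hg]
  rw [h3]
  exact (DifferentiableAt.comp x h2 e.differentiableAt).differentiableWithinAt

/-- difference quotients of an analytic function of two variables -/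
theorem tendsto_quot {p d : ℕ} {H : Cm p × Cm d → ℂ} {t₁ : Cm p} {z : Cm d}
    (hH : AnalyticAt ℂ H (t₁, z)) (x : Cm p) {U : Filter ℂ} (hU : U ≤ 𝓝[≠] 0) {z' : ℂ → Cm d}
    (hz' : Tendsto z' U (𝓝 z)) :
    Tendsto (fun s : ℂ => s⁻¹ * (H (t₁ + s • x, z' s) - H (t₁, z' s))) U
      (𝓝 (fderiv ℂ H (t₁, z) (x, 0))) := by
  have hlim0 : Tendsto (fun s : ℂ => t₁ + s • x) (𝓝 0) (𝓝 t₁) := by
    have : Continuous fun s : ℂ => t₁ + s • x := by fun_prop
    simpa using this.tendsto 0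
  have hU0 : U ≤ 𝓝 0 := hU.trans nhdsWithin_le_nhds
  have hx : Tendsto (fun s : ℂ => (t₁ + s • x, z' s)) U (𝓝 (t₁, z)) :=
    (hlim0.mono_left hU0).prodMk_nhds hz'
  have hy : Tendsto (fun s : ℂ => (t₁, z' s)) U (𝓝 (t₁, z)) :=
    tendsto_const_nhds.prodMk_nhds hz'
  have hne : ∀ᶠ s : ℂ in U, s ≠ 0 := hU self_mem_nhdsWithin
  have h4 : (fun s : ℂ => H (t₁ + s • x, z' s) - H (t₁, z' s) -
      fderiv ℂ H (t₁, z) ((t₁ + s • x, z' s) - (t₁, z' s))) =o[U]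
      fun s : ℂ => ((t₁ + s • x, z' s) - (t₁, z' s) : Cm p × Cm d) :=
    hH.hasStrictFDerivAt.isLittleO.comp_tendsto (hx.prodMk_nhds hy)
  have h5 : ∀ s : ℂ, ((t₁ + s • x, z' s) - (t₁, z' s) : Cm p × Cm d) =
      s • (x, (0 : Cm d)) := by
    intro s
    ext <;> simp
  have h6 : (fun s : ℂ => ((t₁ + s • x, z' s) - (t₁, z' s) : Cm p × Cm d))
      =O[U] fun s : ℂ => s := by
    refine Asymptotics.IsBigO.of_bound ‖(x, (0 : Cm d))‖ (Eventually.of_forall fun s => ?_)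
    rw [h5, norm_smul, mul_comm]
  have h7 := (h4.trans_isBigO h6).tendsto_inv_smul_nhds_zero
  have h8 := h7.add_const (fderiv ℂ H (t₁, z) (x, 0))
  rw [zero_add] at h8
  refine h8.congr' ?_
  filter_upwards [hne] with s hs
  rw [h5, map_smul, smul_eq_mul, smul_eq_mul]
  field_simp
  ring

variable {p d : ℕ} {X Y : Type} [TopologicalSpace X] [ChartedSpace (Cm (p + d)) X]
  [TopologicalSpace Y] [IsManifold 𝓘(ℂ, Cm (p + d)) ω X]

namespace Sys
variable {f : X → Y} {χ : OpenPartialHomeomorph Y (Cm p)} {𝒟 : Finset (Set X)}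
  {S : Sys f χ d 𝒟} {a : Set X → ℤ} {C : ℝ} {G : Cm p → Fin S.N → Cm d → ℂ}

omit [IsManifold 𝓘(ℂ, Cm (p + d)) ω X] in
theorem comp_s {κ : X → ℂ} {i : Fin S.N} {t : Cm p} {z : Cm d} (ht : t ∈ S.T)
    (hz : z ∈ ball (0 : Cm d) 3) (hκ : HolV (Cm (p + d)) κ (S.s i t z)) :
    AnalyticAt ℂ (fun q : Cm p × Cm d => κ (S.s i q.1 q.2)) (t, z) := by
  have h1 : ContMDiffAt 𝓘(ℂ, Cm p × Cm d) 𝓘(ℂ, Cm (p + d)) ω (S.c i).symm (t, z) :=
    (S.prod i).symm_hol.contMDiffAt ((S.c i).open_target.mem_nhds (S.tgt' ht hz))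
  have h2 : ContMDiffAt 𝓘(ℂ, Cm p × Cm d) 𝓘(ℂ, ℂ) ω (fun q => κ ((S.c i).symm q)) (t, z) :=
    ContMDiffAt.comp (g := κ) (t, z) hκ h1
  rw [contMDiffAt_iff_contDiffAt] at h2
  exact h2.analyticAt

theorem cont (hG : ∀ t ∈ S.T, S.Rp a C t (G t)) {t₁ : Cm p} (ht₁ : t₁ ∈ S.T) (i : Fin S.N)
    {z : Cm d} (hz : z ∈ ball (0 : Cm d) 3) :
    Tendsto (fun q : Cm p × Cm d => G q.1 i q.2) (𝓝 (t₁, z)) (𝓝 (G t₁ i z)) := by
  rw [nhds_prod_eq, tendsto_iff_ultrafilter]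
  intro W hW
  have h1 : ((W.map Prod.fst : Ultrafilter (Cm p)) : Filter (Cm p)) ≤ 𝓝 t₁ := by
    rw [Ultrafilter.coe_map]
    exact (Filter.map_mono hW).trans (by
      have := tendsto_fst (f := 𝓝 t₁) (g := 𝓝 z)
      exact this)
  have h2 : (W : Filter (Cm p × Cm d)) ≤
      ((W.map Prod.fst : Ultrafilter (Cm p)) : Filter (Cm p)) ×ˢ 𝓝 z := by
    rw [Filter.prod_eq_inf, le_inf_iff]
    refine ⟨?_, ?_⟩
    · rw [Ultrafilter.coe_map]
      exact le_comap_map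
    · exact hW.trans (by rw [Filter.prod_eq_inf]; exact inf_le_right)
  obtain ⟨v, hv, hvl⟩ := Rp.limit (S := S) (a := a) (C := C) (W.map Prod.fst) (t := id) ht₁ h1
    (G := G) (h1 (by
      filter_upwards [S.isOpen.mem_nhds ht₁] with t ht using hG t ht))
  rw [← hv.unique (hG t₁ ht₁) ht₁ i hz]
  exact (hvl i z hz).mono_left h2

/-- The difference quotients of the normalised units. -/
theorem exists_sq (hG : ∀ t ∈ S.T, S.Rp a C t (G t)) {t₁ : Cm p} (ht₁ : t₁ ∈ S.T) (x : Cm p) :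
    ∃ B : Fin S.N → Fin S.N → Cm d → Cm d → ℂ,
      S.Sq (𝓝[≠] (0 : ℂ)) (fun s => t₁ + s • x) t₁
        (fun s i z => s⁻¹ * (G (t₁ + s • x) i z / G t₁ i z - 1)) B := by
  have hlim0 : Tendsto (fun s : ℂ => t₁ + s • x) (𝓝 0) (𝓝 t₁) := by
    have : Continuous fun s : ℂ => t₁ + s • x := by fun_prop
    simpa using this.tendsto 0
  have hlim : Tendsto (fun s : ℂ => t₁ + s • x) (𝓝[≠] (0 : ℂ)) (𝓝 t₁) :=
    hlim0.mono_left nhdsWithin_le_nhds
  have hT : ∀ᶠ s : ℂ in 𝓝[≠] (0 : ℂ), t₁ + s • x ∈ S.T :=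
    hlim.eventually (S.isOpen.mem_nhds ht₁)
  have hex : ∀ (i j : Fin S.N) (z w : Cm d), ∃ β : ℂ, z ∈ ball (0 : Cm d) 3 →
      w ∈ ball (0 : Cm d) 3 → S.s i t₁ z = S.s j t₁ w →
      ∀ U : Ultrafilter ℂ, (U : Filter ℂ) ≤ 𝓝[≠] (0 : ℂ) →
      ∀ z' w' : ℂ → Cm d, Tendsto z' U (𝓝 z) → Tendsto w' U (𝓝 w) →
        (∀ᶠ s in (U : Filter ℂ), S.s i (t₁ + s • x) (z' s) = S.s j (t₁ + s • x) (w' s)) →
          Tendsto (fun s => s⁻¹ * (G (t₁ + s • x) i (z' s) / G t₁ i (z' s) - 1) -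
            s⁻¹ * (G (t₁ + s • x) j (w' s) / G t₁ j (w' s) - 1)) U (𝓝 β) := by
    intro i j z w
    by_cases hz : z ∈ ball (0 : Cm d) 3
    swap
    · exact ⟨0, fun h => absurd h hz⟩
    by_cases hw : w ∈ ball (0 : Cm d) 3
    swap
    · exact ⟨0, fun _ h => absurd h hw⟩
    by_cases hs : S.s i t₁ z = S.s j t₁ w
    swap
    · exact ⟨0, fun _ _ h => absurd h hs⟩
    obtain ⟨hθ, hθw, hθr⟩ := S.trans ht₁ hz hw hs
    obtain ⟨κ, hκ, hκ0, hκE⟩ := S.kappa a (S.s_mem (i := i) ht₁ hz)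
      (j := j) (by rw [hs]; exact S.s_mem ht₁ hw)
    have hGj : AnalyticAt ℂ (G t₁ j) w :=
      MF.analyticAt_of_differentiableOn isOpen_ball ((hG t₁ ht₁).hol j) hw
    set H : Cm p × Cm d → ℂ := fun q => G t₁ j (S.θ i j q) * κ (S.s i q.1 q.2) with hHdef
    have hH : AnalyticAt ℂ H (t₁, z) := by
      have k1 : AnalyticAt ℂ (fun q => G t₁ j (S.θ i j q)) (t₁, z) := by
        have k2 : AnalyticAt ℂ (G t₁ j) (S.θ i j (t₁, z)) := by rwa [hθw]
        exact k2.comp hθ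
      exact k1.mul (comp_s ht₁ hz hκ)
    have hH0 : H (t₁, z) ≠ 0 := by
      simp only [hHdef, hθw]
      exact mul_ne_zero ((hG t₁ ht₁).ne hw) hκ0
    refine ⟨1 * (fderiv ℂ H (t₁, z) (x, 0) / H (t₁, z)),
      fun _ _ _ U hU z' w' hz' hw' hr => ?_⟩
    have hU0 : (U : Filter ℂ) ≤ 𝓝 0 := hU.trans nhdsWithin_le_nhds
    have hxs : Tendsto (fun s : ℂ => (t₁ + s • x, z' s)) U (𝓝 (t₁, z)) :=
      (hlim0.mono_left hU0).prodMk_nhds hz'
    have hys : Tendsto (fun s : ℂ => (t₁, z' s)) U (𝓝 (t₁, z)) :=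
      tendsto_const_nhds.prodMk_nhds hz'
    have hws : Tendsto (fun s : ℂ => (t₁ + s • x, w' s)) U (𝓝 (t₁, w)) :=
      (hlim0.mono_left hU0).prodMk_nhds hw'
    have hws' : Tendsto (fun s : ℂ => (t₁, w' s)) U (𝓝 (t₁, w)) :=
      tendsto_const_nhds.prodMk_nhds hw'
    -- the factor `Φ → 1`
    have hΦ : Tendsto (fun s : ℂ => G (t₁ + s • x) j (w' s) / G t₁ j (w' s)) U (𝓝 1) := by
      have k1 := ((cont hG ht₁ j hw).comp hws).div ((cont hG ht₁ j hw).comp hws')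
        ((hG t₁ ht₁).ne hw)
      rw [div_self ((hG t₁ ht₁).ne hw)] at k1
      exact k1
    have hq := tendsto_quot hH x hU hz'
    have hHlim : Tendsto (fun s : ℂ => H (t₁, z' s)) U (𝓝 (H (t₁, z))) :=
      hH.continuousAt.tendsto.comp hys
    have key := hΦ.mul (hq.div hHlim hH0)
    refine key.congr' ?_
    -- near `x₁`
    have hκn : ∀ᶠ x' in 𝓝 (S.s i t₁ z), HolV (Cm (p + d)) κ x' ∧
        ∀ᶠ x'' in 𝓝 x', S.E a j x'' = S.E a i x'' * κ x'' :=
      (HolV.eventually hκ).and (eventually_eventually_nhds.2 hκE)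
    have e1 : ∀ᶠ s in (U : Filter ℂ), t₁ + s • x ∈ S.T := hU hT
    have e2 : ∀ᶠ s in (U : Filter ℂ), z' s ∈ ball (0 : Cm d) 3 :=
      hz'.eventually (isOpen_ball.mem_nhds hz)
    have e3 : ∀ᶠ s in (U : Filter ℂ), w' s ∈ ball (0 : Cm d) 3 :=
      hw'.eventually (isOpen_ball.mem_nhds hw)
    have e4 := ((S.s_cont (i := i) ht₁ hz).comp hxs).eventually hκn
    have e5 := ((S.s_cont (i := i) ht₁ hz).comp hys).eventually hκn
    have e0 : ∀ᶠ s in (U : Filter ℂ), s ≠ 0 := hU self_mem_nhdsWithin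
    filter_upwards [e1, e2, e3, e4, e5, hr, hys.eventually hθr, e0] with s g1 g2 g3 g4 g5 g6 g7 g0
    have m1 : G (t₁ + s • x) i (z' s) = G (t₁ + s • x) j (w' s) *
        κ (S.s i (t₁ + s • x) (z' s)) := (hG _ g1).rel' g1 g2 g3 g6 g4.1 g4.2
    have m2 : G t₁ i (z' s) = H (t₁, z' s) :=
      (hG _ ht₁).rel' ht₁ g2 g7.2.2.1 g7.2.2.2 g5.1 g5.2
    have m3 : H (t₁ + s • x, z' s) = G t₁ j (w' s) * κ (S.s i (t₁ + s • x) (z' s)) := by
      simp only [hHdef]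
      rw [S.θ_eq g1 g3 g6]
    have m4 : H (t₁, z' s) ≠ 0 := by
      rw [← m2]
      exact (hG _ ht₁).ne g2
    have m5 : G t₁ j (w' s) ≠ 0 := (hG _ ht₁).ne g3
    simp only [Pi.div_apply]
    rw [m1, m2, m3]
    field_simp
    ring
  choose B hB using hex
  refine ⟨B, hlim, ?_, ?_⟩
  · filter_upwards [hT] with s hs i
    have k1 := ((hG _ hs).hol i).mul (((hG _ ht₁).hol i).inv fun z hz => (hG _ ht₁).ne hz)
    exact ((k1.congr fun z _ => div_eq_mul_inv _ _).sub_const 1).const_mul _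
  · intro i j z hz w hw hs U hU z' w' hz' hw' hr
    exact hB i j z w hz hw hs U hU z' w' hz' hw' hr

variable [T2Space X]

theorem differentiableAt_dir (hG : ∀ t ∈ S.T, S.Rp a C t (G t)) {t₁ : Cm p} (ht₁ : t₁ ∈ S.T)
    (x : Cm p) (i : Fin S.N) {z : Cm d} (hz : z ∈ ball (0 : Cm d) 2) :
    DifferentiableAt ℂ (fun s : ℂ => G (t₁ + s • x) i z) 0 := by
  obtain ⟨B, hB⟩ := exists_sq hG ht₁ x
  have h03 : (0 : Cm d) ∈ ball (0 : Cm d) 3 := mem_ball_self (by norm_num)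
  have hz3 : z ∈ ball (0 : Cm d) 3 := ball_subset_ball (by norm_num) hz
  have hT : ∀ᶠ s : ℂ in 𝓝[≠] (0 : ℂ), t₁ + s • x ∈ S.T :=
    hB.lim.eventually (S.isOpen.mem_nhds ht₁)
  -- the normalisation
  have hE : AnalyticAt ℂ (fun q : Cm p × Cm d => S.E a S.i₀ (S.s S.i₀ q.1 q.2)) (t₁, 0) :=
    comp_s ht₁ h03 (S.E_holV a (S.s_mem ht₁ h03) (S.sec t₁ ht₁))
  have hE0 : S.E a S.i₀ (S.s S.i₀ t₁ 0) ≠ 0 := S.E_ne a (S.s_mem ht₁ h03) (S.sec t₁ ht₁)
  have hq := tendsto_quot (hE.inv hE0) x (le_refl (𝓝[≠] (0 : ℂ)))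
    (z' := fun _ => (0 : Cm d)) tendsto_const_nhds
  have h0 : Tendsto (fun s : ℂ => s⁻¹ * (G (t₁ + s • x) S.i₀ 0 / G t₁ S.i₀ 0 - 1)) (𝓝[≠] 0)
      (𝓝 (fderiv ℂ (fun q : Cm p × Cm d => S.E a S.i₀ (S.s S.i₀ q.1 q.2))⁻¹ (t₁, 0) (x, 0) /
        G t₁ S.i₀ 0)) := by
    refine (hq.div_const _).congr' ?_
    filter_upwards [hT] with s hs
    have k1 := (hG _ hs).norm
    have k2 := (hG _ ht₁).norm
    have k3 : S.E a S.i₀ (S.s S.i₀ (t₁ + s • x) 0) ≠ 0 :=
      S.E_ne a (S.s_mem hs h03) (S.sec _ hs)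
    have k4 : G (t₁ + s • x) S.i₀ 0 = (S.E a S.i₀ (S.s S.i₀ (t₁ + s • x) 0))⁻¹ :=
      eq_inv_of_mul_eq_one_left k1
    have k5 : G t₁ S.i₀ 0 = (S.E a S.i₀ (S.s S.i₀ t₁ 0))⁻¹ := eq_inv_of_mul_eq_one_left k2
    simp only [Pi.inv_apply]
    rw [← k4, ← k5]
    have k6 : G t₁ S.i₀ 0 ≠ 0 := (hG _ ht₁).ne h03
    field_simp
  obtain ⟨v, -, h2, -⟩ := conv ht₁ hB h0
  have h4 : Tendsto (fun s : ℂ => s⁻¹ * (G (t₁ + s • x) i z / G t₁ i z - 1)) (𝓝[≠] 0)
      (𝓝 (v i z)) :=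
    tendsto_of_prod (f := fun s z => s⁻¹ * (G (t₁ + s • x) i z / G t₁ i z - 1)) (h2 i z hz)
      tendsto_const_nhds
  have hne : G t₁ i z ≠ 0 := (hG _ ht₁).ne hz3
  have h5 : HasDerivAt (fun s : ℂ => G (t₁ + s • x) i z) (v i z * G t₁ i z) 0 := by
    rw [hasDerivAt_iff_tendsto_slope_zero]
    refine (h4.mul_const (G t₁ i z)).congr fun s => ?_
    rw [zero_add, zero_smul, add_zero, smul_eq_mul]
    field_simp
  exact h5.differentiableAt

/-- **Analyticity.** -/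
theorem analytic (hG : ∀ t ∈ S.T, S.Rp a C t (G t)) (i : Fin S.N) {t : Cm p} (ht : t ∈ S.T)
    {z : Cm d} (hz : z ∈ ball (0 : Cm d) 2) :
    AnalyticAt ℂ (fun q : Cm p × Cm d => G q.1 i q.2) (t, z) := by
  have h3 : DifferentiableOn ℂ (fun q : Cm p × Cm d => G q.1 i q.2)
      (S.T ×ˢ ball (0 : Cm d) 2) := by
    refine osgood_dir ((Pi.basisFun ℂ (Fin p)).prod (Pi.basisFun ℂ (Fin d)))
      (S.isOpen.prod isOpen_ball) ?_ ?_
    · rintro ⟨t, z⟩ ⟨ht, hz⟩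
      exact cont hG ht i (ball_subset_ball (by norm_num) hz)
    · rintro ⟨t, z⟩ ⟨ht, hz⟩ (k | k)
      · have h4 := differentiableAt_dir hG ht (Pi.basisFun ℂ (Fin p) k) i hz
        simpa using h4
      · have h4 : DifferentiableAt ℂ (G t i) z :=
          ((hG t ht).hol i).differentiableAt
            (isOpen_ball.mem_nhds (ball_subset_ball (by norm_num) hz))
        have h5 : DifferentiableAt ℂ (fun s : ℂ => z + s • (Pi.single k 1 : Cm d)) 0 := by
          fun_prop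
        have h6 : DifferentiableAt ℂ (G t i) ((fun s : ℂ => z + s • (Pi.single k 1 : Cm d)) 0) := by
          simpa using h4
        have h7 := DifferentiableAt.comp (0 : ℂ) h6 h5
        simpa [Function.comp_def] using h7
  exact MF.analyticAt_of_differentiableOn (S.isOpen.prod isOpen_ball) h3 ⟨ht, hz⟩

end Sys

end Vale.Agent.P281.H389.TL
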