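import Vale.Agent.P281.H389.TL.Fam4
import Vale.Agent.P281.H969.TL.Spec

/-!
# P281, project T-L, block B6 (helper389), part 5: units and their representations
-/

open Set Filter Metric
open scoped Topology ContDiff Manifold

noncomputable section

namespace Vale.Agent.P281.H389.TL
open H64 H64.TK H152.K H969.TL

variable {p d : ℕ} {X Y : Type} [TopologicalSpace X] [ChartedSpace (Cm (p + d)) X]
  [TopologicalSpace Y]

theorem IsUnitAt.const_mul {f : X → Y} {𝒟 : Finset (Set X)} {a : Set X → ℤ} {y : Y} {U : X → ℂ}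
    (h : IsUnitAt (Cm (p + d)) f 𝒟 a y U) {b : ℂ} (hb : b ≠ 0) :
    IsUnitAt (Cm (p + d)) f 𝒟 a y (fun x => b * U x) := by
  intro x hx e he
  obtain ⟨g, h1, h2, h3⟩ := h x hx e he
  refine ⟨fun x => b * g x, ?_, mul_ne_zero hb h2, ?_⟩
  · have k1 : ContDiffAt ℂ ω (fun z : ℂ => b * z) (g x) := by fun_prop
    exact (k1.contMDiffAt (n := ω)).comp x h1
  · filter_upwards [h3] with z hz k1 k2
    rw [hz k1 k2]
    ring

namespace Sys
variable {f : X → Y} {χ : OpenPartialHomeomorph Y (Cm p)} {𝒟 : Finset (Set X)}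
  (S : Sys f χ d 𝒟) (a : Set X → ℤ)

/-- Harnack's inequality for the units of the fibres -/
def Har (C : ℝ) : Prop :=
  ∀ t ∈ S.T, ∀ U : X → ℂ, IsUnitAt (Cm (p + d)) f 𝒟 a (χ.symm t) U → U (S.s S.i₀ t 0) = 1 →
    ∀ i, ∀ z ∈ ball (0 : Cm d) 3, (∀ D ∈ 𝒟, S.s i t z ∉ D) →
      ‖U (S.s i t z) * (S.E a i (S.s i t z))⁻¹‖ ≤ C ∧
      1 ≤ C * ‖U (S.s i t z) * (S.E a i (S.s i t z))⁻¹‖

variable {S a}

variable [IsManifold 𝓘(ℂ, Cm (p + d)) ω X]

theorem exists_rep {t : Cm p} (ht : t ∈ S.T) {U : X → ℂ}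
    (hU : IsUnitAt (Cm (p + d)) f 𝒟 a (χ.symm t) U) (i : Fin S.N) :
    ∃ G : Cm d → ℂ, DifferentiableOn ℂ G (ball 0 3) ∧ ∀ z ∈ ball (0 : Cm d) 3,
      (∀ D ∈ 𝒟, S.s i t z ∉ D) → U (S.s i t z) = G z * S.E a i (S.s i t z) := by
  have h1 : ∀ z : Cm d, ∃ h : X → ℂ, z ∈ ball (0 : Cm d) 3 →
      HolV (Cm (p + d)) h (S.s i t z) ∧ ∀ᶠ x in 𝓝 (S.s i t z), f x = χ.symm t →
        (∀ D ∈ 𝒟, x ∉ D) → U x = h x * S.E a i x := by
    intro z
    by_cases hz : z ∈ ball (0 : Cm d) 3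
    · obtain ⟨h, h2, -, h3⟩ := hU _ (S.f_s' (i := i) ht hz) (S.e i) (S.leq i _ (S.s_mem ht hz))
      exact ⟨h, fun _ => ⟨h2, h3⟩⟩
    · exact ⟨0, fun h => absurd h hz⟩
  choose h hh using h1
  have hball : ∀ z ∈ ball (0 : Cm d) 3, ∀ᶠ z' in 𝓝 z, z' ∈ ball (0 : Cm d) 3 := fun z hz =>
    isOpen_ball.mem_nhds hz
  -- two such functions agree
  have key : ∀ z ∈ ball (0 : Cm d) 3,
      (fun z' => h z' (S.s i t z')) =ᶠ[𝓝 z] fun z' => h z (S.s i t z') := by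
    intro z hz
    have k1 : ∀ᶠ x in 𝓝 (S.s i t z), HolV (Cm (p + d)) (h z) x ∧ ∀ᶠ x' in 𝓝 x,
        f x' = χ.symm t → (∀ D ∈ 𝒟, x' ∉ D) → U x' = h z x' * S.E a i x' :=
      (HolV.eventually (hh z hz).1).and (eventually_eventually_nhds.2 (hh z hz).2)
    filter_upwards [hball z hz, (S.s_cont' ht hz).eventually k1] with z' hz' k2
    have c1 : ContinuousAt (fun z'' => h z' (S.s i t z'')) z' :=
      (hh z' hz').1.continuousAt.tendsto.comp (S.s_cont' ht hz')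
    have c2 : ContinuousAt (fun z'' => h z (S.s i t z'')) z' :=
      k2.1.continuousAt.tendsto.comp (S.s_cont' ht hz')
    have c3 : ∃ᶠ z'' in 𝓝 z', h z' (S.s i t z'') = h z (S.s i t z'') := by
      refine ((S.dense i t ht z' hz').and_eventually ((hball z' hz').and
        (((S.s_cont' ht hz').eventually (hh z' hz').2).and
          ((S.s_cont' ht hz').eventually k2.2)))).mono ?_
      rintro z'' ⟨m1, m2, m3, m4⟩
      have m5 := m3 (S.f_s' ht m2) m1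
      rw [m4 (S.f_s' ht m2) m1] at m5
      exact (mul_right_cancel₀ (S.E_ne a (S.s_mem ht m2) m1) m5).symm
    exact eq_of_frequently (F := fun z'' => h z' (S.s i t z''))
      (G := fun z'' => h z (S.s i t z'')) c1 c2 c3
  refine ⟨fun z => h z (S.s i t z), ?_, ?_⟩
  · intro z hz
    refine DifferentiableAt.differentiableWithinAt ?_
    have k1 : AnalyticAt ℂ (fun q : Cm p × Cm d => h z (S.s i q.1 q.2)) (t, z) :=
      comp_s ht hz (hh z hz).1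
    have k2 : AnalyticAt ℂ (fun z' : Cm d => h z (S.s i t z')) z :=
      AnalyticAt.fun_comp (f := fun u : Cm d => (t, u)) k1 (by fun_prop)
    exact k2.differentiableAt.congr_of_eventuallyEq (key z hz)
  · intro z hz hD
    exact (hh z hz).2.self_of_nhds (S.f_s' ht hz) hD

/-- A unit has a normalised representation. -/
theorem exists_rp {C : ℝ} (hH : S.Har a C) {t : Cm p} (ht : t ∈ S.T) {U : X → ℂ}
    (hU : IsUnitAt (Cm (p + d)) f 𝒟 a (χ.symm t) U) : ∃ G, S.Rp a C t G := by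
  have h03 : (0 : Cm d) ∈ ball (0 : Cm d) 3 := mem_ball_self (by norm_num)
  -- normalisation
  obtain ⟨U, hU, hU1⟩ : ∃ U : X → ℂ, IsUnitAt (Cm (p + d)) f 𝒟 a (χ.symm t) U ∧
      U (S.s S.i₀ t 0) = 1 := by
    have h0 : U (S.s S.i₀ t 0) ≠ 0 := by
      obtain ⟨h, -, h2, h3⟩ := hU _ (S.f_s' (i := S.i₀) ht h03) (S.e S.i₀)
        (S.leq S.i₀ _ (S.s_mem ht h03))
      rw [h3.self_of_nhds (S.f_s' ht h03) (S.sec t ht)]
      exact mul_ne_zero h2 (S.E_ne a (S.s_mem ht h03) (S.sec t ht))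
    exact ⟨_, IsUnitAt.const_mul hU (inv_ne_zero h0), inv_mul_cancel₀ h0⟩
  choose G hG1 hG2 using fun i => exists_rep ht hU i
  have hval : ∀ i, ∀ z ∈ ball (0 : Cm d) 3, (∀ D ∈ 𝒟, S.s i t z ∉ D) →
      G i z = U (S.s i t z) * (S.E a i (S.s i t z))⁻¹ := by
    intro i z hz hD
    rw [hG2 i z hz hD, mul_assoc, mul_inv_cancel₀ (S.E_ne a (S.s_mem ht hz) hD), mul_one]
  have hcont : ∀ i, ∀ z ∈ ball (0 : Cm d) 3, ContinuousAt (G i) z := fun i z hz =>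
    ((hG1 i).differentiableAt (isOpen_ball.mem_nhds hz)).continuousAt
  have hfr : ∀ i, ∀ z ∈ ball (0 : Cm d) 3, ∃ᶠ z' in 𝓝 z, ‖G i z'‖ ≤ C ∧ 1 ≤ C * ‖G i z'‖ := by
    intro i z hz
    refine ((S.dense i t ht z hz).and_eventually (isOpen_ball.mem_nhds hz)).mono ?_
    rintro z' ⟨k1, k2⟩
    rw [hval i z' k2 k1]
    exact hH t ht U hU hU1 i z' k2 k1
  refine ⟨G, hG1, fun i z hz => ?_, fun i z hz => ?_, fun i j z hz w hw hs hD => ?_, ?_⟩
  · by_contra hcon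
    rw [not_le] at hcon
    have k1 : ∀ᶠ z' in 𝓝 z, C < ‖G i z'‖ := (hcont i z hz).norm.eventually_const_lt hcon
    exact hfr i z hz (k1.mono fun z' h1 h2 => absurd h1 (not_lt.2 h2.1))
  · by_contra hcon
    rw [not_le] at hcon
    have k1 : ∀ᶠ z' in 𝓝 z, C * ‖G i z'‖ < 1 :=
      ((hcont i z hz).norm.const_mul C).eventually_lt_const hcon
    exact hfr i z hz (k1.mono fun z' h1 h2 => absurd h1 (not_lt.2 h2.2))
  · rw [← hG2 i z hz hD]
    have hD' : ∀ D ∈ 𝒟, S.s j t w ∉ D := by rw [← hs]; exact hD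
    have k1 := hG2 j w hw hD'
    rw [← hs] at k1
    exact k1
  · rw [← hG2 S.i₀ 0 h03 (S.sec t ht), hU1]

/-- All the fibres have normalised units. -/
theorem exists_all {C : ℝ} (hH : S.Har a C)
    (hfr : ∀ t ∈ S.T, ∃ᶠ t' in 𝓝 t, ∃ U, IsUnitAt (Cm (p + d)) f 𝒟 a (χ.symm t') U)
    {t : Cm p} (ht : t ∈ S.T) : ∃ G, S.Rp a C t G := by
  have h1 : ∃ᶠ t' in 𝓝 t, ∃ G, S.Rp a C t' G := by
    refine ((hfr t ht).and_eventually (S.isOpen.mem_nhds ht)).mono ?_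
    rintro t' ⟨⟨U, hU⟩, ht'⟩
    exact exists_rp hH ht' hU
  have h2 : ∀ t' : Cm p, ∃ G : Fin S.N → Cm d → ℂ, (∃ G, S.Rp a C t' G) → S.Rp a C t' G := by
    intro t'
    by_cases h : ∃ G, S.Rp a C t' G
    · obtain ⟨G, hG⟩ := h
      exact ⟨G, fun _ => hG⟩
    · exact ⟨fun _ _ => 0, fun h' => absurd h' h⟩
  choose G hG using h2
  have h3 : (𝓝 t ⊓ 𝓟 {t' | ∃ G, S.Rp a C t' G}).NeBot := by
    rw [← frequently_mem_iff_neBot]
    exact h1
  obtain ⟨v, hv, -⟩ := Rp.limit (S := S) (a := a) (C := C)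
    (Ultrafilter.of (𝓝 t ⊓ 𝓟 {t' | ∃ G, S.Rp a C t' G})) (t := id) ht
    ((Ultrafilter.of_le _).trans inf_le_left) (G := G) (by
      have k1 : ∀ᶠ t' in 𝓝 t ⊓ 𝓟 {t' | ∃ G, S.Rp a C t' G}, ∃ G, S.Rp a C t' G :=
        mem_inf_of_right (mem_principal_self _)
      exact (k1.filter_mono (Ultrafilter.of_le _)).mono fun t' h => hG t' h)
  exact ⟨v, hv⟩

variable [T2Space X]

/-- The family of units. -/
theorem exists_fam {C : ℝ} (hf : Continuous f) (hH : S.Har a C)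
    (hfr : ∀ t ∈ S.T, ∃ᶠ t' in 𝓝 t, ∃ U, IsUnitAt (Cm (p + d)) f 𝒟 a (χ.symm t') U) :
    ∃ U : X → ℂ, IsUnitOn (Cm (p + d)) f 𝒟 a (χ.source ∩ χ ⁻¹' S.T) U := by
  classical
  have h1 : ∀ t : Cm p, ∃ G : Fin S.N → Cm d → ℂ, t ∈ S.T → S.Rp a C t G := by
    intro t
    by_cases h : t ∈ S.T
    · obtain ⟨G, hG⟩ := exists_all hH hfr h
      exact ⟨G, fun _ => hG⟩
    · exact ⟨fun _ _ => 0, fun h' => absurd h' h⟩
  choose G hG using h1
  have h2 : ∀ x : X, ∃ (i : Fin S.N) (z : Cm d), f x ∈ χ.source → χ (f x) ∈ S.T →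
      ‖z‖ < 1 ∧ S.s i (χ (f x)) z = x := by
    intro x
    by_cases h : f x ∈ χ.source ∧ χ (f x) ∈ S.T
    · obtain ⟨i, z, hz, hz'⟩ := S.cover x h.1 h.2
      exact ⟨i, z, fun _ _ => ⟨hz, hz'⟩⟩
    · exact ⟨S.i₀, 0, fun h' h'' => absurd ⟨h', h''⟩ h⟩
  choose I Z hIZ using h2
  have hb : ∀ {z : Cm d} {r : ℝ}, ‖z‖ < 1 → 1 ≤ r → z ∈ ball (0 : Cm d) r := fun h h' => by
    rw [mem_ball_zero_iff]; linarith
  refine ⟨fun x => G (χ (f x)) (I x) (Z x) * S.E a (I x) x, ?_⟩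
  rintro x ⟨hx1, hx2⟩ e he
  obtain ⟨hz1, hz2⟩ := hIZ x hx1 hx2
  set t := χ (f x) with ht
  set i := I x with hi
  set z := Z x with hz
  have hz3 : z ∈ ball (0 : Cm d) 3 := hb hz1 (by norm_num)
  have hzs : x ∈ (S.c i).source := by rw [← hz2]; exact S.s_mem hx2 hz3
  obtain ⟨κ, k1, k2, k3⟩ := exists_kappa (p := p) (d := d) a he (S.leq i x hzs)
  have hcx : S.c i x = (t, z) := by
    have := S.c_s (i := i) hx2 hz3
    rwa [hz2] at this
  have hA : AnalyticAt ℂ (fun q : Cm p × Cm d => G q.1 i q.2) (S.c i x) := by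
    rw [hcx]
    exact analytic hG i hx2 (hb hz1 (by norm_num))
  have hA' : HolV (Cm (p + d)) (fun x' => G (S.c i x').1 i (S.c i x').2) x := by
    have m1 : ContMDiffAt 𝓘(ℂ, Cm (p + d)) 𝓘(ℂ, Cm p × Cm d) ω (S.c i) x :=
      (S.prod i).hol.contMDiffAt ((S.c i).open_source.mem_nhds hzs)
    exact ContMDiffAt.comp (g := fun q : Cm p × Cm d => G q.1 i q.2) x
      (hA.contDiffAt.contMDiffAt (n := ω)) m1
  refine ⟨fun x' => G (S.c i x').1 i (S.c i x').2 * κ x', HolV.mul hA' k1, ?_, ?_⟩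
  · beta_reduce
    rw [hcx]
    exact mul_ne_zero ((hG t hx2).ne hz3) k2
  · have e1 : ∀ᶠ x' in 𝓝 x, f x' ∈ χ.source ∩ χ ⁻¹' S.T :=
      hf.continuousAt.eventually ((χ.isOpen_inter_preimage S.isOpen).mem_nhds ⟨hx1, hx2⟩)
    have e2 : ∀ᶠ x' in 𝓝 x, x' ∈ (S.c i).source := (S.c i).open_source.mem_nhds hzs
    have e3 : ∀ᶠ x' in 𝓝 x, (S.c i x').2 ∈ ball (0 : Cm d) 3 := by
      have := (S.near (i := i) hx2 hz3).eventually (isOpen_ball.mem_nhds hz3)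
      rwa [hz2] at this
    filter_upwards [e1, e2, e3, k3] with x' m1 m2 m3 m4 hD
    obtain ⟨n1, n2⟩ := hIZ x' m1.1 m1.2
    have n3 : S.s i (χ (f x')) (S.c i x').2 = x' := S.s_c m2
    have n4 := (hG _ m1.2).rel (I x') i (Z x') (hb n1 (by norm_num)) _ m3 (by rw [n2, n3])
      (by rw [n2]; exact hD)
    rw [n2] at n4
    rw [n4, ← ((S.prod i).fst x' m2).2]
    have n5 : S.E a i x' = (∏ D ∈ 𝒟, e D x' ^ a D) * κ x' := m4
    rw [n5]
    ring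

end Sys

end Vale.Agent.P281.H389.TL
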