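import Vale.Agent.P281.H389.TL.Fam5

/-!
# P281, project T-L, block B6 (helper389), part 6: construction of the charts; `FamUStmt`
-/

open Set Filter Metric
open scoped Topology ContDiff Manifold

noncomputable section

namespace Vale.Agent.P281.H389.TL
open H64 H64.TK H152.K H969.TL

section
variable {p d : ℕ} {X Y : Type} [TopologicalSpace X] [ChartedSpace (Cm (p + d)) X]
  [TopologicalSpace Y] {f : X → Y} {χ : OpenPartialHomeomorph Y (Cm p)}

theorem restr {c : OpenPartialHomeomorph X (Cm p × Cm d)} (hc : IsProd f χ c) {V : Set X}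
    (hV : IsOpen V) : IsProd f χ (c.restrOpen V hV) := by
  refine ⟨fun x hx => hc.fst x hx.1, ?_, ?_⟩
  · exact hc.hol.mono fun x hx => hx.1
  · refine hc.symm_hol.mono fun q hq => ?_
    have h1 := (c.restrOpen V hV).map_target hq
    have h2 : c ((c.restrOpen V hV).symm q) = q := (c.restrOpen V hV).right_inv hq
    rw [← h2]
    exact c.map_source h1.1

theorem center' {c : OpenPartialHomeomorph X (Cm p × Cm d)} (hc : IsProd f χ c) {x : X}
    (hx : x ∈ c.source) : ∃ (c' : OpenPartialHomeomorph X (Cm p × Cm d)) (δ : ℝ), 0 < δ ∧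
      IsProd f χ c' ∧ c'.source = c.source ∧ c' x = (χ (f x), 0) ∧
      ball (χ (f x)) δ ×ˢ ball (0 : Cm d) 3 ⊆ c'.target := by
  have hx2 : (c x).1 = χ (f x) := (hc.fst x hx).2
  obtain ⟨δ, hδ, hball⟩ := Metric.isOpen_iff.1 c.open_target (c x) (c.map_source hx)
  have ha : ((3 / δ : ℝ) : ℂ) ≠ 0 := by
    rw [Ne, Complex.ofReal_eq_zero]; positivity
  refine ⟨_, δ, hδ, hc.aff ha (c x).2, rfl, ?_, ?_⟩
  · show ((c x).1, ((3 / δ : ℝ) : ℂ) • ((c x).2 - (c x).2)) = _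
    rw [sub_self, smul_zero, hx2]
  · rintro ⟨t, z⟩ ⟨ht, hz⟩
    show (t, ((3 / δ : ℝ) : ℂ)⁻¹ • z + (c x).2) ∈ c.target
    refine hball ?_
    rw [mem_ball, Prod.dist_eq, max_lt_iff]
    refine ⟨by rw [hx2]; exact ht, ?_⟩
    rw [mem_ball_zero_iff] at hz
    show dist (((3 / δ : ℝ) : ℂ)⁻¹ • z + (c x).2) (c x).2 < δ
    rw [dist_eq_norm, add_sub_cancel_right, norm_smul, norm_inv, Complex.norm_real,
      Real.norm_of_nonneg (by positivity), inv_div]
    calc δ / 3 * ‖z‖ < δ / 3 * 3 := by gcongr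
      _ = δ := by ring

theorem comp_symm {c : OpenPartialHomeomorph X (Cm p × Cm d)} (hc : IsProd f χ c)
    {q : Cm p × Cm d} (hq : q ∈ c.target) {κ : X → ℂ} (hκ : HolV (Cm (p + d)) κ (c.symm q)) :
    AnalyticAt ℂ (fun q => κ (c.symm q)) q := by
  have h1 : ContMDiffAt 𝓘(ℂ, Cm p × Cm d) 𝓘(ℂ, Cm (p + d)) ω c.symm q :=
    hc.symm_hol.contMDiffAt (c.open_target.mem_nhds hq)
  have h2 : ContMDiffAt 𝓘(ℂ, Cm p × Cm d) 𝓘(ℂ, ℂ) ω (fun q => κ (c.symm q)) q :=
    ContMDiffAt.comp (g := κ) q hκ h1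
  rw [contMDiffAt_iff_contDiffAt] at h2
  exact h2.analyticAt

/-- points of the fibre in a product chart -/
theorem symm_fibre {c : OpenPartialHomeomorph X (Cm p × Cm d)} (hc : IsProd f χ c) {x : X}
    (hx : x ∈ c.source) : c.symm (χ (f x), (c x).2) = x := by
  have h1 : (χ (f x), (c x).2) = c x := Prod.ext (hc.fst x hx).2.symm rfl
  rw [h1, c.left_inv hx]

theorem f_symm {c : OpenPartialHomeomorph X (Cm p × Cm d)} (hc : IsProd f χ c) {t : Cm p}
    {z : Cm d} (hz : (t, z) ∈ c.target) : f (c.symm (t, z)) = χ.symm t := by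
  obtain ⟨h1, h2⟩ := hc.fst _ (c.map_target hz)
  rw [c.right_inv hz] at h2
  calc f (c.symm (t, z)) = χ.symm (χ (f (c.symm (t, z)))) := (χ.left_inv h1).symm
    _ = χ.symm t := by rw [← h2]

theorem fibre_near' [CompactSpace X] [T2Space Y] (hf : Continuous f) {O : Set X} (hO : IsOpen O)
    {y₀ : Y} (h : f ⁻¹' {y₀} ⊆ O) : ∀ᶠ y in 𝓝 y₀, f ⁻¹' {y} ⊆ O := by
  have h1 : IsClosed (f '' Oᶜ) := (hO.isClosed_compl.isCompact.image hf).isClosed
  have h2 : y₀ ∉ f '' Oᶜ := by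
    rintro ⟨x, hx, hx'⟩
    exact hx (h hx')
  filter_upwards [h1.isOpen_compl.mem_nhds h2] with y hy x hx
  by_contra hxO
  exact hy ⟨x, hxO, hx⟩

end

variable {p d : ℕ} {X Y : Type} [TopologicalSpace X] [T2Space X] [CompactSpace X]
    [ChartedSpace (Cm (p + d)) X] [IsManifold 𝓘(ℂ, Cm (p + d)) ω X] [TopologicalSpace Y]
    [T2Space Y] [ChartedSpace (Cm p) Y] [IsManifold 𝓘(ℂ, Cm p) ω Y] {f : X → Y} {S : Set Y}

theorem exists_chart (hf : ContMDiff 𝓘(ℂ, Cm (p + d)) 𝓘(ℂ, Cm p) ω f)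
    (hP : H64.IsProperFibration (n := p + d) (p := p) f S) {χ : OpenPartialHomeomorph Y (Cm p)}
    (hχ : χ ∈ atlas (Cm p) Y) {x : X} (hx : f x ∈ χ.source) (hxS : f x ∉ S) {V : Set X}
    (hV : V ∈ 𝓝 x) : ∃ (c : OpenPartialHomeomorph X (Cm p × Cm d)) (δ : ℝ), 0 < δ ∧
      IsProd f χ c ∧ x ∈ c.source ∧ c.source ⊆ V ∧ c x = (χ (f x), 0) ∧
      ball (χ (f x)) δ ×ˢ ball (0 : Cm d) 3 ⊆ c.target := by
  obtain ⟨c, h1, h2⟩ := exists_prodChart hf hχ hx (hP.submersive x hxS)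
  obtain ⟨V', hV', hV'o, hxV'⟩ := mem_nhds_iff.1 hV
  obtain ⟨c', δ, k1, k2, k3, k4, k5⟩ := center' (restr h2 hV'o) (x := x) ⟨h1, hxV'⟩
  refine ⟨c', δ, k1, k2, ?_, ?_, k4, k5⟩
  · rw [k3]; exact ⟨h1, hxV'⟩
  · rw [k3]; exact fun z hz => hV' hz.2

/-- A prime divisor which does not contain a fibre has no interior in this fibre. -/
theorem dense_fibre (hf : ContMDiff 𝓘(ℂ, Cm (p + d)) 𝓘(ℂ, Cm p) ω f)
    (hP : H64.IsProperFibration (n := p + d) (p := p) f S) {D : Set X}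
    (hD : J.IsPrime (Cm (p + d)) D) {y : Y} (hy : y ∉ S) (hnot : ¬ f ⁻¹' {y} ⊆ D) {x : X}
    (hx : f x = y) : ¬ ∀ᶠ x' in 𝓝 x, f x' = y → x' ∈ D := by
  intro hcon
  set K : Set X := f ⁻¹' {y} with hK
  have : PreconnectedSpace K := isPreconnected_iff_preconnectedSpace.1
    (hP.connected y hy).isPreconnected
  set A : Set K := {x | ∀ᶠ x' in 𝓝 x.1, f x' = y → x' ∈ D} with hA
  have hcl : IsClopen A := by
    constructor
    · refine isClosed_of_closure_subset fun x₁ hx₁ => ?_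
      have hx1y : f x₁.1 = y := x₁.2
      obtain ⟨g, hg⟩ := hD.2.1 x₁.1
      have hg' : ∀ᶠ x' in 𝓝 x₁.1, J.IsLocalEq (Cm (p + d)) D g x' :=
        IsLocalEq.eventually (E := Cm (p + d)) hg
      obtain ⟨c, δ, hδ, k1, k2, k3, k4, k5⟩ := exists_chart hf hP (χ := chartAt (Cm p) y)
        (chart_mem_atlas _ y) (x := x₁.1) (by rw [hx1y]; exact mem_chart_source _ y)
        (by rw [hx1y]; exact hy) hg'
      rw [hx1y] at k4 k5
      set χ := chartAt (Cm p) y with hχ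
      have hball : ∀ z ∈ ball (0 : Cm d) 3, (χ y, z) ∈ c.target := fun z hz =>
        k5 ⟨mem_ball_self hδ, hz⟩
      have hN : ∀ᶠ x' in 𝓝 x₁.1, x' ∈ c.source ∧ (c x').2 ∈ ball (0 : Cm d) 3 := by
        have h0 : ∀ᶠ x' in 𝓝 x₁.1, x' ∈ c.source := c.open_source.mem_nhds k2
        refine h0.and ?_
        have h1 : Tendsto (fun x' => (c x').2) (𝓝 x₁.1) (𝓝 (c x₁.1).2) :=
          (continuous_snd.tendsto _).comp (c.continuousAt k2)
        refine h1.eventually (isOpen_ball.mem_nhds ?_)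
        rw [k4]
        exact mem_ball_self (by norm_num)
      have han : AnalyticOnNhd ℂ (fun z : Cm d => g (c.symm (χ y, z))) (ball 0 3) := by
        intro z hz
        have h1 : AnalyticAt ℂ (fun q => g (c.symm q)) (χ y, z) :=
          comp_symm k1 (hball z hz) (IsLocalEq.holAt (E := Cm (p + d))
            (k3 (c.map_target (hball z hz))))
        exact AnalyticAt.fun_comp (f := fun u : Cm d => (χ y, u)) h1 (by fun_prop)
      obtain ⟨x₂, hx₂, hx₂N⟩ := ((mem_closure_iff_frequently.1 hx₁).and_eventually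
        ((continuous_subtype_val.tendsto x₁).eventually hN)).exists
      have hx2y : f x₂.1 = y := x₂.2
      have h2 : c.symm (χ y, (c x₂.1).2) = x₂.1 := by
        have := symm_fibre k1 hx₂N.1
        rwa [hx2y] at this
      have h3 : ∀ᶠ z in 𝓝 (c x₂.1).2, g (c.symm (χ y, z)) = 0 := by
        have h4 : Tendsto (fun z : Cm d => c.symm (χ y, z)) (𝓝 (c x₂.1).2) (𝓝 x₂.1) := by
          have h5 : Tendsto c.symm (𝓝 (χ y, (c x₂.1).2)) (𝓝 (c.symm (χ y, (c x₂.1).2))) :=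
            c.continuousAt_symm (hball _ hx₂N.2)
          rw [h2] at h5
          exact h5.comp ((Continuous.prodMk_right (χ y)).tendsto (c x₂.1).2)
        filter_upwards [h4.eventually hx₂, isOpen_ball.mem_nhds hx₂N.2] with z h6 h7
        have h8 : c.symm (χ y, z) ∈ D := h6 (by
          rw [f_symm k1 (hball z h7)]
          exact χ.left_inv (mem_chart_source _ y))
        exact (IsLocalEq.mem_iff (E := Cm (p + d)) (k3 (c.map_target (hball z h7)))).1 h8
      have h9 := han.eqOn_zero_of_preconnected_of_eventuallyEq_zero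
        (convex_ball _ _).isPreconnected hx₂N.2 h3
      show ∀ᶠ x' in 𝓝 x₁.1, f x' = y → x' ∈ D
      filter_upwards [hN] with x' m1 m2
      have m3 : g (c.symm (χ y, (c x').2)) = 0 := h9 m1.2
      have m4 := symm_fibre k1 m1.1
      rw [m2] at m4
      rw [m4] at m3
      exact (IsLocalEq.mem_iff (E := Cm (p + d)) (k3 m1.1)).2 m3
    · rw [isOpen_iff_mem_nhds]
      intro x₁ hx₁
      exact (continuous_subtype_val.tendsto x₁).eventually (eventually_eventually_nhds.2 hx₁)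
  have h1 : A = univ := hcl.eq_univ ⟨⟨x, hx⟩, hcon⟩
  refine hnot fun x' hx' => ?_
  have h2 : (⟨x', hx'⟩ : K) ∈ A := by rw [h1]; trivial
  have h3 : ∀ᶠ x'' in 𝓝 x', f x'' = y → x'' ∈ D := h2
  exact h3.self_of_nhds hx'

theorem dense_chart (hf : ContMDiff 𝓘(ℂ, Cm (p + d)) 𝓘(ℂ, Cm p) ω f)
    (hP : H64.IsProperFibration (n := p + d) (p := p) f S) {𝒟 : Finset (Set X)}
    (h𝒟 : ∀ D ∈ 𝒟, J.IsPrime (Cm (p + d)) D) (hnot : ∀ D ∈ 𝒟, ∀ y ∉ S, ¬ f ⁻¹' {y} ⊆ D)
    {χ : OpenPartialHomeomorph Y (Cm p)} {c : OpenPartialHomeomorph X (Cm p × Cm d)}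
    (hc : IsProd f χ c) {t : Cm p} (ht : χ.symm t ∉ S) : ∀ z : Cm d, (t, z) ∈ c.target →
      ∃ᶠ z' in 𝓝 z, ∀ D ∈ 𝒟, c.symm (t, z') ∉ D := by
  classical
  have hcont : ∀ z : Cm d, (t, z) ∈ c.target →
      Tendsto (fun z' : Cm d => c.symm (t, z')) (𝓝 z) (𝓝 (c.symm (t, z))) := fun z hz =>
    (c.continuousAt_symm hz).tendsto.comp ((Continuous.prodMk_right t).tendsto z)
  have htgt : ∀ z : Cm d, (t, z) ∈ c.target → ∀ᶠ z' in 𝓝 z, (t, z') ∈ c.target := fun z hz =>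
    ((Continuous.prodMk_right t).tendsto z).eventually (c.open_target.mem_nhds hz)
  have h1 : ∀ D ∈ 𝒟, ∀ z : Cm d, (t, z) ∈ c.target → ∃ᶠ z' in 𝓝 z, c.symm (t, z') ∉ D := by
    intro D hD z hz hcon
    refine dense_fibre hf hP (h𝒟 D hD) ht (hnot D hD _ ht) (f_symm hc hz) ?_
    have h2 : Tendsto (fun x' => (c x').2) (𝓝 (c.symm (t, z))) (𝓝 z) := by
      have h3 : Tendsto (fun x' => (c x').2) (𝓝 (c.symm (t, z))) (𝓝 (c (c.symm (t, z))).2) :=
        (continuous_snd.tendsto _).comp (c.continuousAt (c.map_target hz))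
      rwa [c.right_inv hz] at h3
    have h4 : ∀ᶠ x' in 𝓝 (c.symm (t, z)), x' ∈ c.source :=
      c.open_source.mem_nhds (c.map_target hz)
    filter_upwards [h2.eventually hcon, h4] with x' m1 m2 m3
    have m4 := symm_fibre hc m2
    have m5 : χ (f x') = t := by
      rw [m3]
      have := (hc.fst _ (c.map_target hz)).2
      rw [c.right_inv hz, f_symm hc hz] at this
      exact this.symm
    rw [m5] at m4
    rw [m4] at m1
    simpa using m1
  have key : ∀ 𝒟' : Finset (Set X), 𝒟' ⊆ 𝒟 → ∀ z : Cm d, (t, z) ∈ c.target →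
      ∃ᶠ z' in 𝓝 z, ∀ D ∈ 𝒟', c.symm (t, z') ∉ D := by
    intro 𝒟'
    induction 𝒟' using Finset.induction_on with
    | empty =>
      intro _ z _
      refine Filter.Eventually.frequently (Eventually.of_forall fun z' D hD => ?_)
      exact absurd hD (Finset.notMem_empty D)
    | insert D 𝒟' hD ih =>
      intro hsub z hz
      have hD𝒟 : D ∈ 𝒟 := hsub (Finset.mem_insert_self D 𝒟')
      have hsub' : 𝒟' ⊆ 𝒟 := fun D' hD' => hsub (Finset.mem_insert_of_mem hD')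
      rw [← frequently_frequently_nhds]
      refine ((ih hsub' z hz).and_eventually (htgt z hz)).mono ?_
      rintro z' ⟨m1, m2⟩
      have m3 : ∀ᶠ z'' in 𝓝 z', ∀ D' ∈ 𝒟', c.symm (t, z'') ∉ D' := by
        rw [Filter.eventually_all_finset]
        intro D' hD'
        exact (hcont z' m2).eventually ((h𝒟 D' (hsub' hD')).1.isOpen_compl.mem_nhds (m1 D' hD'))
      refine ((h1 D hD𝒟 z' m2).and_eventually m3).mono ?_
      rintro z'' ⟨n1, n2⟩ D' hD'
      rcases Finset.mem_insert.1 hD' with rfl | h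
      · exact n1
      · exact n2 D' h
  exact key 𝒟 (Finset.Subset.refl _)

end Vale.Agent.P281.H389.TL
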